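import Vale.Agent.P214.REG.Fin
import Vale.Agent.P214.WIN.Props
import Vale.Agent.P214.ALL.Props

/-!
# P214, block REG: the propositions `WIN.RegDiffStmt` and `ALL.RegLimStmt`
-/

open MvPolynomial MeasureTheory Filter Topology Metric
open scoped ENNReal ContDiff

namespace Vale.Agent.P214.REG

open Vale.Agent.P214.REF

/-- **(A')** in the form used by STEP -/
theorem regDiff (m n : ℕ) : WIN.RegDiffStmt m n := by
  obtain ⟨ε, hε, -, hB, -⟩ := exists_reg_minimal m n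
  refine ⟨ε, hε, fun q => ?_⟩
  obtain ⟨C, hC, hb⟩ := hB q
  refine ⟨C * 2 ^ q, by positivity, fun u u' x0 t Z ht ht1 hu hu' s s' e e' hZ a k h1 h2 => ?_⟩
  have hlt : ∀ x : E m, ‖x - x0‖ < t / 2 → ‖x - x0‖ < t := fun x hx => by linarith
  have hZ0 : 0 ≤ Z := (norm_nonneg _).trans (hZ a 1 le_rfl (by omega) x0 (by simpa using ht))
  have h3 := hb x0 (t / 2) u' u (by linarith) (by linarith)
    { smooth := hu', small := fun a k h1 h2 x hx => s' a k h1 h2 x (hlt x hx),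
      eq := fun a x hx => e' a x (hlt x hx) }
    { smooth := hu, small := fun a k h1 h2 x hx => s a k h1 h2 x (hlt x hx),
      eq := fun a x hx => e a x (hlt x hx) } Z
    (fun a k h1 h2 x hx => by
      have h4 := hZ a k h1 h2 x (hlt x hx)
      have h5 : (t / 2) ^ (k - 1) ≤ 1 := pow_le_one₀ (by linarith) (by linarith)
      calc (t / 2) ^ (k - 1) * ‖iteratedFDeriv ℝ k (fun y => u' a y - u a y) x‖ ≤ 1 * Z := by
            gcongr
        _ = Z := one_mul Z) a k h1 h2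
  refine h3.trans ?_
  have h6 : (t / 2)⁻¹ ^ (k - 1) ≤ 2 ^ q * t⁻¹ ^ k := by
    have h7 : (t / 2)⁻¹ = 2 * t⁻¹ := by
      field_simp
    have h8 : 1 ≤ t⁻¹ := (one_le_inv₀ ht).2 ht1
    rw [h7, mul_pow]
    have h9 : (2 : ℝ) ^ (k - 1) ≤ 2 ^ q := pow_le_pow_right₀ one_le_two (by omega)
    have h10 : t⁻¹ ^ (k - 1) ≤ t⁻¹ ^ k := pow_le_pow_right₀ h8 (Nat.sub_le _ _)
    have h11 : 0 ≤ t⁻¹ := by positivity
    gcongr
  calc C * (t / 2)⁻¹ ^ (k - 1) * Z ≤ C * (2 ^ q * t⁻¹ ^ k) * Z := by gcongr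
    _ = C * 2 ^ q * t⁻¹ ^ k * Z := by ring

/-- **(B)** in the form used by ALL and WINDOWS -/
theorem regLim (m n : ℕ) : ALL.RegLimStmt m n := by
  obtain ⟨ε, hε, -, -, hL⟩ := exists_reg_minimal m n
  refine ⟨ε, hε, fun u v r hr hr1 hR hl a => ?_⟩
  refine hL (ball 0 r) isOpen_ball u v (fun j a => (hR j).smooth a)
    (fun j a k _ hk x _ => (hR j).small a k (by unfold WIN.sW; omega) x)
    (fun j a x hx => (hR j).exact a x (by rwa [mem_ball, dist_zero_right] at hx)) hl a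

end Vale.Agent.P214.REG
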