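import Vale.Agent.P214.REG.Main

/-!
# P214, block REG: final statements

* `exists_reg`: interior bounds at every point and every scale, for exact solutions and for
  differences of exact solutions of a quasilinear system;
* `exists_reg_minimal`: the same for the minimal surface operator `Mop`;
* `contDiffOn_limit`, `contDiffOn_limit_minimal`: uniform limits of small exact solutions are smooth.
-/

open MvPolynomial MeasureTheory Filter Topology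
open scoped ENNReal ContDiff

namespace Vale.Agent.P214.REG

open Vale.Agent.P214.REF

noncomputable section

variable {m n : ℕ} {c : Fin m → Fin m → MvPolynomial (Fin m × Fin n) ℝ}

/-- `u` is a small exact solution on the ball `‖x - x0‖ < r` -/
structure AdmAt (c : Fin m → Fin m → MvPolynomial (Fin m × Fin n) ℝ) (ε : ℝ) (x0 : E m) (r : ℝ)
    (u : Fin n → E m → ℝ) : Prop where
  smooth : ∀ a, ContDiff ℝ ∞ (u a)
  small : ∀ a, ∀ k, 1 ≤ k → k ≤ 2 * m + 1 → ∀ x, ‖x - x0‖ < r → ‖iteratedFDeriv ℝ k (u a) x‖ ≤ ε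
  eq : ∀ a x, ‖x - x0‖ < r → Qop c u a x = 0

lemma aff_sub_lt {x0 : E m} {r : ℝ} (hr : 0 < r) {y : E m} (hy : ‖y‖ < 1 / 2) :
    ‖aff x0 (2 * r) y - x0‖ < r := by
  unfold aff
  rw [add_sub_cancel_left, norm_smul, Real.norm_eq_abs, abs_of_pos (by linarith)]
  nlinarith

lemma AdmAt.adm {ε : ℝ} {x0 : E m} {r : ℝ} {u : Fin n → E m → ℝ} (h : AdmAt c ε x0 r u)
    (hr : 0 < r) (hr1 : r ≤ 1 / 2) : Adm c ε fun a => resc x0 (2 * r) (u a) where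
  smooth a := contDiff_resc (h.smooth a) x0 (2 * r)
  small a k hk1 hk2 y hy := by
    refine (norm_iter_resc (h.smooth a) x0 (by linarith) hk1 y).trans ?_
    calc (2 * r) ^ (k - 1) * ‖iteratedFDeriv ℝ k (u a) (aff x0 (2 * r) y)‖ ≤ 1 * ε := by
          gcongr
          · exact pow_le_one₀ (by linarith) (by linarith)
          · exact h.small a k hk1 hk2 _ (aff_sub_lt hr hy)
      _ = ε := one_mul _
  eq a y hy := by
    rw [Qop_resc c h.smooth x0 (by linarith), h.eq a _ (aff_sub_lt hr hy), mul_zero]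

lemma back_at {f : E m → ℝ} (hf : ContDiff ℝ ∞ f) (x0 : E m) {r : ℝ} (hr : 0 < r) {k : ℕ}
    (hk : 1 ≤ k) {B : ℝ} (hB : ‖iteratedFDeriv ℝ k (resc x0 (2 * r) f) 0‖ ≤ B) :
    ‖iteratedFDeriv ℝ k f x0‖ ≤ r⁻¹ ^ (k - 1) * B := by
  have h1 := norm_iter_le_resc hf x0 (r := 2 * r) (by linarith) hk 0
  have e1 : aff x0 (2 * r) 0 = x0 := by simp [aff]
  rw [e1] at h1
  have hB0 : 0 ≤ B := (norm_nonneg _).trans hB
  refine h1.trans ?_
  have h2 : (2 * r)⁻¹ ≤ r⁻¹ := inv_anti₀ hr (by linarith)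
  have h3 : 0 ≤ (2 * r)⁻¹ := by positivity
  gcongr

/-- **interior bounds at every point and scale** -/
theorem exists_reg (c : Fin m → Fin m → MvPolynomial (Fin m × Fin n) ℝ)
    (hc : ∀ i j, constantCoeff (c i j) = 0) : ∃ ε0 : ℝ, 0 < ε0 ∧
    (∀ q : ℕ, ∃ C : ℝ, 1 ≤ C ∧ ∀ (x0 : E m) (r : ℝ) (u : Fin n → E m → ℝ), 0 < r → r ≤ 1 / 2 →
      AdmAt c ε0 x0 r u → ∀ a, ∀ k, 1 ≤ k → k ≤ q →
        ‖iteratedFDeriv ℝ k (u a) x0‖ ≤ C * r⁻¹ ^ (k - 1)) ∧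
    (∀ q : ℕ, ∃ C : ℝ, 1 ≤ C ∧ ∀ (x0 : E m) (r : ℝ) (u u' : Fin n → E m → ℝ), 0 < r → r ≤ 1 / 2 →
      AdmAt c ε0 x0 r u → AdmAt c ε0 x0 r u' → ∀ Z : ℝ,
      (∀ a, ∀ k, 1 ≤ k → k ≤ 2 * m + 1 → ∀ x, ‖x - x0‖ < r →
        r ^ (k - 1) * ‖iteratedFDeriv ℝ k (fun y => u a y - u' a y) x‖ ≤ Z) →
      ∀ a, ∀ k, 1 ≤ k → k ≤ q →
        ‖iteratedFDeriv ℝ k (fun y => u a y - u' a y) x0‖ ≤ C * r⁻¹ ^ (k - 1) * Z) := by
  obtain ⟨C0, e0, ε0, hg⟩ := exists_good c hc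
  refine ⟨ε0, hg.pos', fun q => ?_, fun q => ?_⟩
  · obtain ⟨C, hC, hb⟩ := boundA hg q
    refine ⟨max 1 C, le_max_left _ _, fun x0 r u hr hr1 hu a k h1 h2 => ?_⟩
    have h3 := back_at (hu.smooth a) x0 hr h1 (hb _ (hu.adm hr hr1) a k h1 h2)
    refine h3.trans ?_
    rw [mul_comm]
    gcongr
    exact le_max_right _ _
  · obtain ⟨C, hC, hb⟩ := boundB hg q
    refine ⟨C * 2 ^ (2 * m), ?_, fun x0 r u u' hr hr1 hu hu' Z hZ a k h1 h2 => ?_⟩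
    · have : (1 : ℝ) ≤ 2 ^ (2 * m) := one_le_pow₀ one_le_two
      nlinarith
    · have hz : ∀ a, ContDiff ℝ ∞ fun y => u a y - u' a y := fun a =>
        (hu.smooth a).sub (hu'.smooth a)
      have hr' : ∀ a, (fun y => resc x0 (2 * r) (u a) y - resc x0 (2 * r) (u' a) y) =
          resc x0 (2 * r) fun y => u a y - u' a y := fun a => funext fun y => resc_sub _ _ _ _ _
      have h3 := hb _ _ (hu.adm hr hr1) (hu'.adm hr hr1) (2 ^ (2 * m) * Z) (by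
        intro a k hk1 hk2 y hy
        rw [hr']
        refine (norm_iter_resc (hz a) x0 (by linarith) hk1 y).trans ?_
        have h4 := hZ a k hk1 hk2 (aff x0 (2 * r) y) (aff_sub_lt hr hy)
        rw [mul_pow, mul_assoc]
        have h5 : (2 : ℝ) ^ (k - 1) ≤ 2 ^ (2 * m) := pow_le_pow_right₀ one_le_two (by omega)
        have h6 : 0 ≤ r ^ (k - 1) * ‖iteratedFDeriv ℝ k (fun y => u a y - u' a y)
          (aff x0 (2 * r) y)‖ := by positivity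
        gcongr) a k h1 h2
      rw [hr'] at h3
      refine (back_at (hz a) x0 hr h1 h3).trans (le_of_eq (by ring))

/-- **uniform limits of small exact solutions are smooth** -/
theorem contDiffOn_limit {ε0 : ℝ}
    (hA : ∀ q : ℕ, ∃ C : ℝ, 1 ≤ C ∧ ∀ (x0 : E m) (r : ℝ) (u : Fin n → E m → ℝ), 0 < r → r ≤ 1 / 2 →
      AdmAt c ε0 x0 r u → ∀ a, ∀ k, 1 ≤ k → k ≤ q →
        ‖iteratedFDeriv ℝ k (u a) x0‖ ≤ C * r⁻¹ ^ (k - 1))
    {O : Set (E m)} (hO : IsOpen O) {u : ℕ → Fin n → E m → ℝ} {v : Fin n → E m → ℝ}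
    (hu : ∀ i a, ContDiff ℝ ∞ (u i a))
    (hs : ∀ i a, ∀ k, 1 ≤ k → k ≤ 2 * m + 1 → ∀ x ∈ O, ‖iteratedFDeriv ℝ k (u i a) x‖ ≤ ε0)
    (he : ∀ i a, ∀ x ∈ O, Qop c (u i) a x = 0)
    (hl : ∀ a, TendstoUniformlyOn (fun i => u i a) (v a) atTop O) (a : Fin n) :
    ContDiffOn ℝ ∞ (v a) O := by
  refine TAYL.contDiffOn_infty_of_smoothApprox fun k x0 hx0 => ?_
  obtain ⟨δ, hδ, hball⟩ := Metric.isOpen_iff.1 hO x0 hx0
  obtain ⟨C, hC, hb⟩ := hA (k + 1)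
  set s : ℝ := min (δ / 4) (1 / 2) with hs'
  have hs0 : 0 < s := lt_min (by positivity) (by norm_num)
  have hs1 : s ≤ 1 / 2 := min_le_right _ _
  have hs2 : s ≤ δ / 4 := min_le_left _ _
  have hinv : 1 ≤ s⁻¹ := (one_le_inv₀ hs0).2 (by linarith)
  set D : ℝ := C * s⁻¹ ^ k with hD
  have hD1 : 1 ≤ D := by
    have : (1 : ℝ) ≤ s⁻¹ ^ k := one_le_pow₀ hinv
    nlinarith
  refine ⟨D, s, s, by linarith, hs0, hs0, fun x hx r hr hrs => ?_⟩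
  have hin : ∀ y, ‖y - x‖ ≤ r → ∀ z, ‖z - y‖ < s → z ∈ O := by
    intro y hy z hz
    refine hball ?_
    rw [Metric.mem_ball, dist_eq_norm]
    have h1 : z - x0 = (z - y) + (y - x) + (x - x0) := by abel
    rw [h1]
    calc ‖(z - y) + (y - x) + (x - x0)‖ ≤ ‖z - y‖ + ‖y - x‖ + ‖x - x0‖ := norm_add₃_le
      _ < s + s + s := by linarith
      _ < δ := by linarith
  have hr0 : 0 < r ^ (k + 1) := by positivity
  obtain ⟨i, hi⟩ := (Metric.tendstoUniformlyOn_iff.1 (hl a) (r ^ (k + 1)) hr0).exists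
  refine ⟨u i a, fun y _ => ((hu i a).of_le (by exact_mod_cast le_top)).contDiffAt,
    fun y hy => ?_, fun y hy => ?_⟩
  · have h2 : AdmAt c ε0 y s (u i) :=
      { smooth := hu i
        small := fun a k h1 h2 z hz => hs i a k h1 h2 z (hin y hy z hz)
        eq := fun a z hz => he i a z (hin y hy z hz) }
    have h3 := hb y s (u i) hs0 hs1 h2 a (k + 1) (by omega) le_rfl
    rw [Nat.add_sub_cancel] at h3
    exact h3
  · have h4 := hi y (hin y hy y (by rw [sub_self, norm_zero]; exact hs0))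
    rw [dist_eq_norm] at h4
    refine h4.le.trans ?_
    nlinarith

/-! ### the minimal surface operator -/

/-- `u` is a small exact minimal graph on the ball `‖x - x0‖ < r` -/
structure MinAt (ε : ℝ) (x0 : E m) (r : ℝ) (u : Fin n → E m → ℝ) : Prop where
  smooth : ∀ a, ContDiff ℝ ∞ (u a)
  small : ∀ a, ∀ k, 1 ≤ k → k ≤ 2 * m + 1 → ∀ x, ‖x - x0‖ < r → ‖iteratedFDeriv ℝ k (u a) x‖ ≤ ε
  eq : ∀ a x, ‖x - x0‖ < r → Mop u a x = 0

lemma MinAt.adm {ε : ℝ} {x0 : E m} {r : ℝ} {u : Fin n → E m → ℝ} (h : MinAt ε x0 r u) :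
    AdmAt (cp m n) ε x0 r u :=
  { smooth := h.smooth
    small := h.small
    eq := fun a x hx => by rw [Qop_cp]; exact h.eq a x hx }

/-- **(A), (A')** for minimal graphs -/
theorem exists_reg_minimal (m n : ℕ) : ∃ ε0 : ℝ, 0 < ε0 ∧
    (∀ q : ℕ, ∃ C : ℝ, 1 ≤ C ∧ ∀ (x0 : E m) (r : ℝ) (u : Fin n → E m → ℝ), 0 < r → r ≤ 1 / 2 →
      MinAt ε0 x0 r u → ∀ a, ∀ k, 1 ≤ k → k ≤ q →
        ‖iteratedFDeriv ℝ k (u a) x0‖ ≤ C * r⁻¹ ^ (k - 1)) ∧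
    (∀ q : ℕ, ∃ C : ℝ, 1 ≤ C ∧ ∀ (x0 : E m) (r : ℝ) (u u' : Fin n → E m → ℝ), 0 < r → r ≤ 1 / 2 →
      MinAt ε0 x0 r u → MinAt ε0 x0 r u' → ∀ Z : ℝ,
      (∀ a, ∀ k, 1 ≤ k → k ≤ 2 * m + 1 → ∀ x, ‖x - x0‖ < r →
        r ^ (k - 1) * ‖iteratedFDeriv ℝ k (fun y => u a y - u' a y) x‖ ≤ Z) →
      ∀ a, ∀ k, 1 ≤ k → k ≤ q →
        ‖iteratedFDeriv ℝ k (fun y => u a y - u' a y) x0‖ ≤ C * r⁻¹ ^ (k - 1) * Z) ∧
    (∀ (O : Set (E m)), IsOpen O → ∀ (u : ℕ → Fin n → E m → ℝ) (v : Fin n → E m → ℝ),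
      (∀ i a, ContDiff ℝ ∞ (u i a)) →
      (∀ i a, ∀ k, 1 ≤ k → k ≤ 2 * m + 1 → ∀ x ∈ O, ‖iteratedFDeriv ℝ k (u i a) x‖ ≤ ε0) →
      (∀ i a, ∀ x ∈ O, Mop (u i) a x = 0) →
      (∀ a, TendstoUniformlyOn (fun i => u i a) (v a) atTop O) → ∀ a, ContDiffOn ℝ ∞ (v a) O) := by
  obtain ⟨ε0, h0, hA, hB⟩ := exists_reg (cp m n) constantCoeff_cp
  refine ⟨ε0, h0, fun q => ?_, fun q => ?_, fun O hO u v hu hs he hl a => ?_⟩
  · obtain ⟨C, hC, hb⟩ := hA q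
    exact ⟨C, hC, fun x0 r u hr hr1 hu => hb x0 r u hr hr1 hu.adm⟩
  · obtain ⟨C, hC, hb⟩ := hB q
    exact ⟨C, hC, fun x0 r u u' hr hr1 hu hu' => hb x0 r u u' hr hr1 hu.adm hu'.adm⟩
  · exact contDiffOn_limit (c := cp m n) hA hO hu hs
      (fun i a x hx => by rw [Qop_cp]; exact he i a x hx) hl a

end

end Vale.Agent.P214.REG
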