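import Vale.Agent.P214.REF.Minimal

/-!
# P214, block REG: Fourier coefficients of derivatives and comparison of weighted norms
-/

open MeasureTheory UnitAddTorus
open scoped ENNReal ContDiff FourierTransform

namespace Vale.Agent.P214.REG

open Vale.Agent.P214.REF

noncomputable section

variable {m n : ℕ}

lemma sup_of_lt {F : E m → ℝ} {r : ℝ} (hr : r ≤ 7 / 16) (h : ∀ x, r ≤ ‖x‖ → F x = 0) : Sup F :=
  fun x hx => h x (hr.trans hx)

/-- derivatives of a function vanishing outside of a ball -/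
lemma pd_zero_of {F : E m → ℝ} (hF : ContDiff ℝ ∞ F) {r : ℝ} (h : ∀ x, r ≤ ‖x‖ → F x = 0)
    (i : Fin m) : ∀ x, r ≤ ‖x‖ → pd i F x = 0 := by
  have hgt : ∀ x, r < ‖x‖ → pd i F x = 0 := by
    intro x hx
    have h1 : F =ᶠ[nhds x] fun _ => (0 : ℝ) := by
      filter_upwards [(isOpen_lt continuous_const continuous_norm).mem_nhds hx] with y hy
      exact h y hy.le
    unfold pd
    rw [h1.fderiv_eq]
    simp
  intro x hx
  rcases hx.lt_or_eq with hx | hx
  · exact hgt x hx
  · -- boundary points: by continuity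
    by_cases hx0 : x = 0
    · -- then `r = 0` and the function is zero everywhere
      have hr0 : r = 0 := by rw [hx, hx0, norm_zero]
      have h2 : F = fun _ => 0 := by
        funext y
        exact h y (by rw [hr0]; exact norm_nonneg y)
      rw [h2]
      unfold pd
      simp
    · have hc : Continuous (pd i F) := (contDiff_pd hF i).continuous
      have ht : Filter.Tendsto (fun s : ℝ => pd i F (s • x)) (nhdsWithin 1 (Set.Ioi 1))
          (nhds (pd i F x)) := by
        have h3 : Continuous fun s : ℝ => pd i F (s • x) := hc.comp (continuous_id.smul continuous_const)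
        have h4 := h3.tendsto 1
        rw [one_smul] at h4
        exact h4.mono_left nhdsWithin_le_nhds
      have ht0 : Filter.Tendsto (fun s : ℝ => pd i F (s • x)) (nhdsWithin 1 (Set.Ioi 1))
          (nhds 0) := by
        refine tendsto_const_nhds.congr' ?_
        filter_upwards [self_mem_nhdsWithin] with s hs
        symm
        refine hgt _ ?_
        have hs1 : (1 : ℝ) < s := hs
        rw [norm_smul, Real.norm_eq_abs, abs_of_pos (by linarith), hx]
        have : 0 < ‖x‖ := norm_pos_iff.2 hx0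
        nlinarith
      exact tendsto_nhds_unique ht ht0

/-- Fourier coefficients of a derivative -/
lemma fc_per_pd {F : E m → ℝ} (hF : ContDiff ℝ ∞ F) (hs : Sup F) (i : Fin m) (k : Fin m → ℤ) :
    fc (per (pd i F)) k = (2 * Real.pi * Complex.I * (k i)) * fc (per F) k := by
  have hs' : Sup (pd i F) := pd_zero_of hF hs i
  rw [fc_per (contDiff_pd hF i).continuous hs', fc_per hF.continuous hs]
  set G : E m → ℂ := fun x => (F x : ℂ) with hG
  have hGd : ContDiff ℝ ∞ G := Complex.ofRealCLM.contDiff.comp hF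
  have hGc : HasCompactSupport G := hcs hs
  have hint : Integrable G := hGd.continuous.integrable_of_hasCompactSupport hGc
  have hint' : Integrable (fderiv ℝ G) :=
    (hGd.continuous_fderiv (by simp)).integrable_of_hasCompactSupport (hGc.fderiv ℝ)
  have h1 := Real.fourier_fderiv hint (hGd.differentiable (by simp)) hint'
  have h2 : (fun x => ((pd i F x : ℝ) : ℂ)) = fun x => fderiv ℝ G x (bs i) := by
    funext x
    have h3 : HasFDerivAt G (Complex.ofRealCLM.comp (fderiv ℝ F x)) x :=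
      Complex.ofRealCLM.hasFDerivAt.comp x (hF.differentiable (by simp) x).hasFDerivAt
    rw [h3.fderiv]
    rfl
  rw [h2, ← Real.fourier_continuousLinearMap_apply hint', h1]
  rw [VectorFourier.fourierSMulRight_apply]
  have h4 : ((-innerSL ℝ : E m →L[ℝ] E m →L[ℝ] ℝ) (vec k)) (bs i) = -(k i : ℝ) := by
    change -(inner ℝ (vec k) (bs i)) = _
    congr 1
    unfold bs vec
    rw [PiLp.inner_apply]
    rw [Finset.sum_eq_single i]
    · simp
    · intro j _ hj
      simp [hj]
    · intro h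
      exact absurd (Finset.mem_univ i) h
  rw [h4]
  simp only [neg_smul, smul_eq_mul, Complex.real_smul, mul_neg, Complex.ofReal_intCast]
  ring

lemma per_add {F G : E m → ℝ} (hF : Continuous F) (hG : Continuous G) (sF : Sup F) (sG : Sup G) :
    per (fun x => F x + G x) = per F + per G := by
  ext t
  have h1 := per_apply (F := fun x => F x + G x) (hF.add hG)
    (fun x hx => by simp only [sF x hx, sG x hx, add_zero]) t
  rw [h1, ContinuousMap.add_apply, per_apply hF sF, per_apply hG sG]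

lemma per_sub {F G : E m → ℝ} (hF : Continuous F) (hG : Continuous G) (sF : Sup F) (sG : Sup G) :
    per (fun x => F x - G x) = per F - per G := by
  ext t
  have h1 := per_apply (F := fun x => F x - G x) (hF.sub hG)
    (fun x hx => by simp only [sF x hx, sG x hx, sub_zero]) t
  rw [h1, ContinuousMap.sub_apply, per_apply hF sF, per_apply hG sG]

lemma per_mul {F G : E m → ℝ} (hF : Continuous F) (hG : Continuous G) (sF : Sup F) (sG : Sup G) :
    per (fun x => F x * G x) = per F * per G := by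
  ext t
  have h1 := per_apply (F := fun x => F x * G x) (hF.mul hG)
    (fun x hx => by simp only [sF x hx, zero_mul]) t
  rw [h1, ContinuousMap.mul_apply, per_apply hF sF, per_apply hG sG]

lemma per_sum {ι : Type*} (s : Finset ι) {F : ι → E m → ℝ} (hF : ∀ i ∈ s, Continuous (F i))
    (sF : ∀ i ∈ s, Sup (F i)) : per (fun x => ∑ i ∈ s, F i x) = ∑ i ∈ s, per (F i) := by
  ext t
  rw [per_apply (continuous_finsetSum s hF) (fun x hx => Finset.sum_eq_zero fun i hi => sF i hi x hx),
    ContinuousMap.coe_sum, Finset.sum_apply]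
  exact Finset.sum_congr rfl fun i hi => (per_apply (hF i hi) (sF i hi) t).symm

/-- Laplace operator -/
def lap (F : E m → ℝ) (x : E m) : ℝ := ∑ i, pd i (pd i F) x

lemma contDiff_lap {F : E m → ℝ} (hF : ContDiff ℝ ∞ F) : ContDiff ℝ ∞ (lap F) :=
  ContDiff.sum fun i _ => contDiff_pd (contDiff_pd hF i) i

lemma sup_lap {F : E m → ℝ} (hF : ContDiff ℝ ∞ F) (hs : Sup F) : Sup (lap F) := fun x hx =>
  Finset.sum_eq_zero fun i _ => pd_zero_of (contDiff_pd hF i) (pd_zero_of hF hs i) i x hx

lemma fc_per_lap {F : E m → ℝ} (hF : ContDiff ℝ ∞ F) (hs : Sup F) (k : Fin m → ℤ) :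
    fc (per (lap F)) k = -(4 * Real.pi ^ 2 * sq2 k : ℝ) * fc (per F) k := by
  have h1 : per (lap F) = ∑ i, per (pd i (pd i F)) := by
    refine per_sum Finset.univ (fun i _ => (contDiff_pd (contDiff_pd hF i) i).continuous) fun i _ => ?_
    exact pd_zero_of (contDiff_pd hF i) (pd_zero_of hF hs i) i
  have h2 : ∀ (s : Finset (Fin m)) (f : Fin m → C(Tor m, ℝ)), fc (∑ i ∈ s, f i) k = ∑ i ∈ s, fc (f i) k := by
    intro s f
    induction s using Finset.induction_on with
    | empty => simp [fc_zero]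
    | insert i s hi ih => rw [Finset.sum_insert hi, Finset.sum_insert hi, fc_add, ih]
  rw [h1, h2]
  have h3 : ∀ i, fc (per (pd i (pd i F))) k = -((4 * Real.pi ^ 2 * (k i : ℝ) ^ 2 : ℝ) : ℂ) * fc (per F) k := by
    intro i
    rw [fc_per_pd (contDiff_pd hF i) (pd_zero_of hF hs i), fc_per_pd hF hs]
    push_cast
    linear_combination (4 * (Real.pi : ℂ) ^ 2 * (k i : ℂ) ^ 2 * fc (per F) k) * Complex.I_sq
  rw [Finset.sum_congr rfl fun i _ => h3 i, ← Finset.sum_mul]
  congr 1
  unfold sq2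
  push_cast
  rw [Finset.mul_sum, Finset.sum_neg_distrib]

/-- second derivatives are bounded by the Laplacian, for every weight -/
lemma N_pd_pd_le (w : (Fin m → ℤ) → ℝ≥0∞) {F : E m → ℝ} (hF : ContDiff ℝ ∞ F) (hs : Sup F)
    (i j : Fin m) : N w (per (pd i (pd j F))) ≤ N w (per (lap F)) := by
  refine ENNReal.tsum_le_tsum fun k => ?_
  gcongr
  rw [fc_per_pd (contDiff_pd hF j) (pd_zero_of hF hs j), fc_per_pd hF hs, fc_per_lap hF hs]
  rw [← ofReal_norm, ← ofReal_norm]
  refine ENNReal.ofReal_le_ofReal ?_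
  rw [norm_mul (2 * Real.pi * Complex.I * (k i) : ℂ), norm_mul (2 * Real.pi * Complex.I * (k j) : ℂ),
    norm_fac, norm_fac, norm_mul, norm_neg, Complex.norm_real,
    Real.norm_eq_abs, abs_of_nonneg (a := 4 * Real.pi ^ 2 * sq2 k)
      (by have := sq2_nonneg k; positivity)]
  have h1 := sq_le_sq2 k i
  have h2 := sq_le_sq2 k j
  have h3 : |(k i : ℝ)| * |(k j : ℝ)| ≤ sq2 k := by nlinarith [sq_nonneg (|(k i : ℝ)| - |(k j : ℝ)|)]
  have h4 : 2 * Real.pi * |(k i : ℝ)| * (2 * Real.pi * |(k j : ℝ)| * ‖fc (per F) k‖) =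
      4 * Real.pi ^ 2 * (|(k i : ℝ)| * |(k j : ℝ)|) * ‖fc (per F) k‖ := by ring
  rw [h4]
  gcongr

/-- gain of one derivative in the weight -/
lemma N_succ_le (p : ℕ) {F : E m → ℝ} (hF : ContDiff ℝ ∞ F) (hs : Sup F) :
    N (wt (p + 1) 0 0) (per F) ≤ N (wt p 0 0) (per F) + ∑ i, N (wt p 0 0) (per (pd i F)) := by
  have h0 : N (wt p 0 0) (per F) + ∑ i, N (wt p 0 0) (per (pd i F)) =
      ∑' k, (‖fc (per F) k‖ₑ * wt p 0 0 k + ∑ i, ‖fc (per (pd i F)) k‖ₑ * wt p 0 0 k) := by
    unfold N
    rw [ENNReal.tsum_add]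
    congr 1
    exact (Summable.tsum_finsetSum fun i _ => ENNReal.summable).symm
  rw [h0]
  unfold N
  refine ENNReal.tsum_le_tsum fun k => ?_
  have h1 : ∀ i, ‖fc (per (pd i F)) k‖ₑ = ENNReal.ofReal (2 * Real.pi * |(k i : ℝ)| * ‖fc (per F) k‖) := by
    intro i
    rw [fc_per_pd hF hs, ← ofReal_norm, norm_mul, norm_fac]
  have hsz := sz_nonneg k
  simp only [h1]
  unfold wt wr
  simp only [pow_zero, mul_one]
  rw [← ofReal_norm, ← ENNReal.ofReal_mul (norm_nonneg _), ← ENNReal.ofReal_mul (norm_nonneg _)]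
  have h2 : ∀ i : Fin m, ENNReal.ofReal (2 * Real.pi * |(k i : ℝ)| * ‖fc (per F) k‖) *
      ENNReal.ofReal ((1 + sz k) ^ p) =
      ENNReal.ofReal (2 * Real.pi * |(k i : ℝ)| * ‖fc (per F) k‖ * (1 + sz k) ^ p) := fun i =>
    (ENNReal.ofReal_mul (by positivity)).symm
  simp only [h2]
  rw [← ENNReal.ofReal_sum_of_nonneg (fun i _ => by positivity),
    ← ENNReal.ofReal_add (by positivity) (Finset.sum_nonneg fun i _ => by positivity)]
  refine ENNReal.ofReal_le_ofReal ?_
  have h3 : ∑ i : Fin m, 2 * Real.pi * |(k i : ℝ)| * ‖fc (per F) k‖ * (1 + sz k) ^ p =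
      2 * Real.pi * sz k * ‖fc (per F) k‖ * (1 + sz k) ^ p := by
    unfold sz
    rw [Finset.mul_sum, Finset.sum_mul, Finset.sum_mul]
  rw [h3, pow_succ]
  have hpi := Real.pi_gt_three
  have h4 : 0 ≤ ‖fc (per F) k‖ * (1 + sz k) ^ p := by positivity
  have h5 : 0 ≤ sz k * (‖fc (per F) k‖ * (1 + sz k) ^ p) := by positivity
  nlinarith

/-- pointwise bounds of the derivatives by the weighted norm -/
lemma norm_iteratedFDeriv_le_N {F : E m → ℝ} (hF : ContDiff ℝ ∞ F) (hs : Sup F) {j q : ℕ}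
    (hj : j ≤ q) {x : E m} (hx : ‖x‖ < 1 / 2) :
    ‖iteratedFDeriv ℝ j F x‖ ≤ (2 * Real.pi) ^ j * (N (wt q 0 0) (per F)).toReal := by
  have hfin : ∀ p, N (wt 0 p 1) (per F) ≠ ⊤ := fun p => by
    rw [funext fun k => wt_eq 0 p k]
    exact N_per_ne_top hF hs _
  have hd : Dec (fc (per F)) := dec_fc (J := 0) hfin
  have h1 : F =ᶠ[nhds x] S (fc (per F)) := by
    filter_upwards [(isOpen_lt continuous_norm continuous_const).mem_nhds hx] with y hy
    rw [fc_qt hd, per_qt hF.continuous hs hy]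
  rw [(h1.iteratedFDeriv ℝ j).eq_of_nhds]
  refine (hd.norm_iteratedFDeriv_le j x).trans ?_
  have h0 : N (wt q 0 0) (per F) ≠ ⊤ := N_per_ne_top hF hs q
  rw [toReal_N le_rfl h0, ← tsum_mul_left]
  refine (hd.summable_pow j).tsum_le_tsum (fun k => ?_) ((summable_wr le_rfl h0).mul_left _)
  have hsz := sz_nonneg k
  unfold wr
  rw [pow_zero, mul_one, mul_pow]
  have h2 : sz k ^ j ≤ (1 + sz k) ^ q := by
    calc sz k ^ j ≤ (1 + sz k) ^ j := by gcongr; linarith
      _ ≤ (1 + sz k) ^ q := pow_le_pow_right₀ (by linarith) hj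
  calc ‖fc (per F) k‖ * ((2 * Real.pi) ^ j * sz k ^ j)
      = (2 * Real.pi) ^ j * (‖fc (per F) k‖ * sz k ^ j) := by ring
    _ ≤ _ := by gcongr

end

end Vale.Agent.P214.REG
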