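import Vale.Agent.P214.REG.Step

/-!
# P214, block REG: nested cut-offs and the iteration of the bootstrap step
-/

open MvPolynomial MeasureTheory
open scoped ENNReal ContDiff

namespace Vale.Agent.P214.REG

open Vale.Agent.P214.REF

noncomputable section

variable {m n : ℕ}

/-- radii of the nested cut-offs -/
def rh (l : ℕ) : ℝ := 1 / 8 + 1 / (4 * ((l : ℝ) + 1))

lemma rh_zero : rh 0 = 3 / 8 := by
  unfold rh
  norm_num

lemma rh_gt (l : ℕ) : 1 / 8 < rh l := by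
  unfold rh
  have : 0 < 1 / (4 * ((l : ℝ) + 1)) := by positivity
  linarith

lemma rh_succ (l : ℕ) : rh (l + 1) < rh l := by
  unfold rh
  have : 1 / (4 * (((l + 1 : ℕ) : ℝ) + 1)) < 1 / (4 * ((l : ℝ) + 1)) := by
    apply one_div_lt_one_div_of_lt (by positivity)
    push_cast
    linarith
  linarith

lemma rh_le (l : ℕ) : rh l ≤ 3 / 8 := by
  induction l with
  | zero => exact rh_zero.le
  | succ l ih => exact (rh_succ l).le.trans ih

/-- the nested cut-offs -/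
def ch (m l : ℕ) : ContDiffBump (0 : E m) :=
  ⟨rh (l + 1), rh l, lt_trans (by norm_num) (rh_gt (l + 1)), rh_succ l⟩

lemma ch_zero (l : ℕ) {x : E m} (hx : rh l ≤ ‖x‖) : ch m l x = 0 := by
  refine (ch m l).zero_of_le_dist ?_
  rw [dist_zero_right]
  exact hx

lemma ch_one (l : ℕ) {x : E m} (hx : ‖x‖ ≤ rh (l + 1)) : ch m l x = 1 := by
  refine (ch m l).one_of_mem_closedBall ?_
  rw [Metric.mem_closedBall, dist_zero_right]
  exact hx

lemma ch_smooth (l : ℕ) : ContDiff ℝ ∞ (ch m l) := (ch m l).contDiff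

lemma cut_ch (l : ℕ) : Cut (ch m (l + 1)) (ch m l) (rh (l + 1)) where
  h1 := ch_smooth (l + 1)
  h2 := ch_smooth l
  s1 := fun _ hx => ch_zero (l + 1) hx
  s2 := sup_of_lt ((rh_le l).trans (by norm_num)) fun _ hx => ch_zero l hx
  one := fun _ hx => ch_one l hx
  le := (rh_le (l + 1)).trans (by norm_num)

/-- bound of the localised function by derivatives -/
lemma N_ch_le (q l : ℕ) : ∃ C : ℝ, 0 ≤ C ∧ ∀ F : E m → ℝ, ContDiff ℝ ∞ F → ∀ M : ℝ,
    (∀ j ≤ q + 2 * m, ∀ x, ‖x‖ < 1 / 2 → ‖iteratedFDeriv ℝ j F x‖ ≤ M) →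
      N (wt q 0 0) (per fun x => ch m l x * F x) ≤ ENNReal.ofReal (C * M) := by
  obtain ⟨C1, hC1, hN⟩ := N_per_le m q
  obtain ⟨C2, hC2, hM⟩ := mul_bound (m := m) (q + 2 * m) (ch_smooth l)
    (fun x hx => ch_zero l ((rh_le l).trans hx))
  refine ⟨C1 * C2, by positivity, fun F hF M hb => ?_⟩
  have h1 := hN (fun x => ch m l x * F x) ((ch_smooth l).mul hF) (fun x hx => by
    simp only [ch_zero l (((rh_le l).trans (by norm_num)).trans hx), zero_mul]) (C2 * M)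
    (hM F hF M hb)
  rw [mul_assoc]
  exact h1

lemma N_wt_le_of_le {p q : ℕ} (h : p ≤ q) (f : C(Tor m, ℝ)) : N (wt p 0 0) f ≤ N (wt q 0 0) f := by
  refine N_mono (fun k => ?_) f
  unfold wt wr
  refine ENNReal.ofReal_le_ofReal ?_
  have := sz_nonneg k
  simp only [pow_zero, mul_one]
  exact pow_le_pow_right₀ (by linarith) h

/-- the constants of the bootstrap -/
structure Good (c : Fin m → Fin m → MvPolynomial (Fin m × Fin n) ℝ) (C0 : ℝ≥0∞) (e0 ε0 : ℝ) :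
    Prop where
  ne : C0 ≠ ⊤
  pb : PB c C0
  pos : 0 < e0
  two : 2 * e0 ≤ 1
  small : (m : ℝ≥0∞) ^ 2 * (C0 * ENNReal.ofReal (2 * e0)) ≤ 2⁻¹
  pos' : 0 < ε0
  low : ∀ l ≤ 2 * m + 2, ∀ F : E m → ℝ, ContDiff ℝ ∞ F →
    (∀ j ≤ 2 * m, ∀ x, ‖x‖ < 1 / 2 → ‖iteratedFDeriv ℝ j F x‖ ≤ ε0) →
      N (wt 0 0 0) (per fun x => ch m l x * F x) ≤ ENNReal.ofReal e0

lemma exists_good (c : Fin m → Fin m → MvPolynomial (Fin m × Fin n) ℝ)
    (hc : ∀ i j, constantCoeff (c i j) = 0) : ∃ C0 e0 ε0, Good c C0 e0 ε0 := by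
  obtain ⟨C0, hC0t, hC0⟩ := poly_lip' (m := m) c hc
  set B : ℝ := 2 + 4 * (m : ℝ) ^ 2 * C0.toReal with hB
  have hc0 : 0 ≤ C0.toReal := ENNReal.toReal_nonneg
  have hB0 : 0 < B := by positivity
  set e0 : ℝ := 1 / B with he0
  have he0p : 0 < e0 := by positivity
  choose C hC hN using fun l => N_ch_le (m := m) 0 l
  set S : ℝ := ∑ l ∈ Finset.range (2 * m + 3), C l with hS
  have hS0 : 0 ≤ S := Finset.sum_nonneg fun l _ => hC l
  refine ⟨C0, e0, e0 / (1 + S), hC0t, hC0, he0p, ?_, ?_, by positivity, ?_⟩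
  · rw [he0, mul_one_div, div_le_one hB0, hB]
    have : 0 ≤ 4 * (m : ℝ) ^ 2 * C0.toReal := by positivity
    linarith
  · rw [← ENNReal.ofReal_toReal hC0t, ← ENNReal.ofReal_natCast, ← ENNReal.ofReal_pow (by positivity),
      ← ENNReal.ofReal_mul hc0, ← ENNReal.ofReal_mul (by positivity)]
    have h3 : (2⁻¹ : ℝ≥0∞) = ENNReal.ofReal (1 / 2) := by
      rw [one_div, ENNReal.ofReal_inv_of_pos two_pos, ENNReal.ofReal_ofNat]
    rw [h3]
    refine ENNReal.ofReal_le_ofReal ?_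
    rw [he0]
    have h4 : (m : ℝ) ^ 2 * (C0.toReal * (2 * (1 / B))) = (2 * (m : ℝ) ^ 2 * C0.toReal) / B := by
      ring
    rw [h4, div_le_iff₀ hB0, hB]
    have : 0 ≤ 4 * (m : ℝ) ^ 2 * C0.toReal := by positivity
    linarith
  · intro l hl F hF hb
    refine (hN l F hF (e0 / (1 + S)) (fun j hj => hb j (by omega))).trans ?_
    refine ENNReal.ofReal_le_ofReal ?_
    have h5 : C l ≤ S := Finset.single_le_sum (f := C) (fun l _ => hC l)
      (Finset.mem_range.2 (by omega))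
    calc C l * (e0 / (1 + S)) ≤ (1 + S) * (e0 / (1 + S)) := by
          gcongr
          linarith
      _ = e0 := by field_simp

/-- iteration of the step for one solution -/
lemma iterA {c : Fin m → Fin m → MvPolynomial (Fin m × Fin n) ℝ} {C0 : ℝ≥0∞} {e0 ε0 : ℝ}
    (hg : Good c C0 e0 ε0) (hcz : ∀ a x, ‖x‖ < 1 / 2 → Qop c (fun (_ : Fin n) (_ : E m) => (0 : ℝ)) a x = 0)
    (K : ℕ) {M : ℝ≥0∞} (hM : M ≠ ⊤) (l : ℕ) : ∃ C : ℝ≥0∞, C ≠ ⊤ ∧
      ∀ u : Fin n → E m → ℝ, (∀ a, ContDiff ℝ ∞ (u a)) → (∀ a x, ‖x‖ < 1 / 2 → Qop c u a x = 0) →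
      (∀ l' < l, ∀ s, N (wt 0 0 0) (Pj (ch m l') u s) ≤ ENNReal.ofReal e0) →
      (∀ a, N (wt K 0 0) (per fun x => ch m 0 x * u a x) ≤ M) →
      (∀ s, N (wt K 0 0) (Pj (ch m 0) u s) ≤ M) →
      (∀ a, N (wt (K + l) 0 0) (per fun x => ch m l x * u a x) ≤ C) ∧
      (∀ s, N (wt (K + l) 0 0) (Pj (ch m l) u s) ≤ C) := by
  induction l with
  | zero => exact ⟨M, hM, fun u hu e hs h1 h2 => ⟨h1, h2⟩⟩
  | succ l ih =>
    obtain ⟨C, hC, hit⟩ := ih
    obtain ⟨C', hC', hmic⟩ := micro c hg.ne hg.pb hg.pos hg.two hg.small (cut_ch l) (K + l) hC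
    refine ⟨C' * C, ENNReal.mul_ne_top hC' hC, fun u hu e hs h1 h2 => ?_⟩
    obtain ⟨a1, a2⟩ := hit u hu e (fun l' hl' => hs l' (Nat.lt_succ_of_lt hl')) h1 h2
    have z1 : ∀ s, Pj (ch m l) (fun (_ : Fin n) (_ : E m) => (0 : ℝ)) s = 0 := by
      intro s
      unfold Pj
      simp only [pd_zero, mul_zero]
      ext t
      rw [per_apply continuous_const (fun _ _ => rfl)]
      rfl
    have z2 : ∀ (i j : Fin m), (per fun x : E m => ch m l x * pd i (pd j (fun _ : E m => (0 : ℝ))) x) = 0 := by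
      intro i j
      simp only [pd_zero, mul_zero]
      ext t
      rw [per_apply continuous_const (fun _ _ => rfl)]
      rfl
    have h := hmic u (fun _ _ => 0) hu (fun a => contDiff_const) e hcz (hs l (Nat.lt_succ_self l))
      (fun s => by rw [z1, N_zero]; exact bot_le) a2 (fun s => by rw [z1, N_zero]; exact bot_le)
      (fun i j a => by
        have := z2 i j
        rw [this, N_zero]
        exact bot_le) C
      (fun a => by simpa only [sub_zero] using a1 a)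
      (fun a i => by
        simp only [sub_zero]
        exact a2 (i, a))
    simp only [sub_zero] at h
    exact ⟨h.1, fun s => h.2 s.2 s.1⟩

/-- iteration of the step for a difference -/
lemma iterB {c : Fin m → Fin m → MvPolynomial (Fin m × Fin n) ℝ} {C0 : ℝ≥0∞} {e0 ε0 : ℝ}
    (hg : Good c C0 e0 ε0) (K : ℕ) {M : ℝ≥0∞} (hM : M ≠ ⊤) (l : ℕ) : ∃ C : ℝ≥0∞, C ≠ ⊤ ∧
      ∀ u u' : Fin n → E m → ℝ, (∀ a, ContDiff ℝ ∞ (u a)) → (∀ a, ContDiff ℝ ∞ (u' a)) →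
      (∀ a x, ‖x‖ < 1 / 2 → Qop c u a x = 0) → (∀ a x, ‖x‖ < 1 / 2 → Qop c u' a x = 0) →
      (∀ l' < l, ∀ s, N (wt 0 0 0) (Pj (ch m l') u s) ≤ ENNReal.ofReal e0) →
      (∀ l' < l, ∀ s, N (wt 0 0 0) (Pj (ch m l') u' s) ≤ ENNReal.ofReal e0) →
      (∀ l' < l, ∀ s, N (wt (K + l) 0 0) (Pj (ch m l') u s) ≤ M) →
      (∀ l' < l, ∀ s, N (wt (K + l) 0 0) (Pj (ch m l') u' s) ≤ M) →
      (∀ l' < l, ∀ i j a, N (wt (K + l) 0 0) (per fun x => ch m l' x * pd i (pd j (u' a)) x) ≤ M) →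
      ∀ Z : ℝ≥0∞, (∀ a, N (wt K 0 0) (per fun x => ch m 0 x * (u a x - u' a x)) ≤ Z) →
      (∀ a i, N (wt K 0 0) (per fun x => ch m 0 x * pd i (fun y => u a y - u' a y) x) ≤ Z) →
      (∀ a, N (wt (K + l) 0 0) (per fun x => ch m l x * (u a x - u' a x)) ≤ C * Z) ∧
      (∀ a i, N (wt (K + l) 0 0) (per fun x => ch m l x * pd i (fun y => u a y - u' a y) x) ≤
        C * Z) := by
  induction l with
  | zero => exact ⟨1, by simp, fun u u' hu hu' e e' s s' m1 m2 m3 Z h1 h2 => by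
      simpa only [one_mul] using ⟨h1, h2⟩⟩
  | succ l ih =>
    obtain ⟨C, hC, hit⟩ := ih
    obtain ⟨C', hC', hmic⟩ := micro c hg.ne hg.pb hg.pos hg.two hg.small (cut_ch l) (K + l) hM
    refine ⟨C' * C, ENNReal.mul_ne_top hC' hC, fun u u' hu hu' e e' s s' m1 m2 m3 Z h1 h2 => ?_⟩
    have mono : ∀ f : C(Tor m, ℝ), N (wt (K + l) 0 0) f ≤ N (wt (K + (l + 1)) 0 0) f := fun f =>
      N_wt_le_of_le (by omega) f
    obtain ⟨a1, a2⟩ := hit u u' hu hu' e e' (fun l' hl' => s l' (Nat.lt_succ_of_lt hl'))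
      (fun l' hl' => s' l' (Nat.lt_succ_of_lt hl'))
      (fun l' hl' t => (mono _).trans (m1 l' (Nat.lt_succ_of_lt hl') t))
      (fun l' hl' t => (mono _).trans (m2 l' (Nat.lt_succ_of_lt hl') t))
      (fun l' hl' i j a => (mono _).trans (m3 l' (Nat.lt_succ_of_lt hl') i j a)) Z h1 h2
    have h := hmic u u' hu hu' e e' (s l (Nat.lt_succ_self l)) (s' l (Nat.lt_succ_self l))
      (fun t => (mono _).trans (m1 l (Nat.lt_succ_self l) t))
      (fun t => (mono _).trans (m2 l (Nat.lt_succ_self l) t))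
      (fun i j a => (mono _).trans (m3 l (Nat.lt_succ_self l) i j a)) (C * Z) a1 a2
    rw [mul_assoc]
    exact h

/-- pointwise bounds from the last cut-off -/
lemma bound_of_N {q l : ℕ} {F : E m → ℝ} (hF : ContDiff ℝ ∞ F) {B : ℝ} (hB : 0 ≤ B)
    (h : N (wt q 0 0) (per fun x => ch m l x * F x) ≤ ENNReal.ofReal B) {k : ℕ} (hk : k ≤ q)
    {x : E m} (hx : ‖x‖ ≤ 1 / 8) : ‖iteratedFDeriv ℝ k F x‖ ≤ (2 * Real.pi) ^ q * B := by
  have hF' : ContDiff ℝ ∞ fun x => ch m l x * F x := (ch_smooth l).mul hF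
  have hs : Sup fun x => ch m l x * F x := (cut_ch l).supm F
  have h1 : F =ᶠ[nhds x] fun x => ch m l x * F x := by
    have h2 : ‖x‖ < rh (l + 1) := hx.trans_lt (rh_gt (l + 1))
    filter_upwards [(isOpen_lt continuous_norm continuous_const).mem_nhds h2] with y hy
    have hy' : ‖y‖ < rh (l + 1) := hy
    rw [ch_one l hy'.le, one_mul]
  rw [(h1.iteratedFDeriv ℝ k).eq_of_nhds]
  refine (norm_iteratedFDeriv_le_N hF' hs hk (by linarith)).trans ?_
  have hpi := Real.pi_gt_three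
  have h3 : (2 * Real.pi) ^ k ≤ (2 * Real.pi) ^ q := pow_le_pow_right₀ (by linarith) hk
  have h4 : (N (wt q 0 0) (per fun x => ch m l x * F x)).toReal ≤ B :=
    ENNReal.toReal_le_of_le_ofReal hB h
  have h5 : 0 ≤ (N (wt q 0 0) (per fun x => ch m l x * F x)).toReal := ENNReal.toReal_nonneg
  gcongr

end

end Vale.Agent.P214.REG
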