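import Vale.Agent.P214.REG.Resc
import Vale.Agent.P214.TAYL.Main

/-!
# P214, block REG: interior bounds for exact solutions and for differences of exact solutions

For a quasilinear system `Δ u_a = ∑ c_ij(Du) ∂_i ∂_j u_a` with polynomial coefficients vanishing at
zero: small smooth exact solutions have interior bounds of all orders, and differences of two such
solutions are bounded, in all orders, by their derivatives of order `≤ 2m+1`.
-/

open MvPolynomial MeasureTheory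
open scoped ENNReal ContDiff

namespace Vale.Agent.P214.REG

open Vale.Agent.P214.REF

noncomputable section

variable {m n : ℕ} {c : Fin m → Fin m → MvPolynomial (Fin m × Fin n) ℝ}

lemma Qop_zero (c : Fin m → Fin m → MvPolynomial (Fin m × Fin n) ℝ) (a : Fin n) (x : E m) :
    Qop c (fun (_ : Fin n) (_ : E m) => (0 : ℝ)) a x = 0 := by
  unfold Qop
  simp only [pd_zero, mul_zero, Finset.sum_const_zero, sub_self]

lemma norm_iter_pd_le {u : E m → ℝ} (hu : ContDiff ℝ ∞ u) {q : ℕ} {M : ℝ}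
    (h : ∀ k, 1 ≤ k → k ≤ q + 1 → ∀ x, ‖x‖ < 1 / 2 → ‖iteratedFDeriv ℝ k u x‖ ≤ M) (i : Fin m) :
    ∀ j ≤ q, ∀ x, ‖x‖ < 1 / 2 → ‖iteratedFDeriv ℝ j (pd i u) x‖ ≤ M := fun j hj x hx =>
  (norm_iteratedFDeriv_pd hu i j x).trans (h (j + 1) (by omega) (by omega) x hx)

/-- one macro step, for one solution -/
lemma macroA {C0 : ℝ≥0∞} {e0 ε0 : ℝ} (hg : Good c C0 e0 ε0) (K : ℕ) (M : ℝ) :
    ∃ C : ℝ, 0 ≤ C ∧ ∀ u : Fin n → E m → ℝ, Adm c ε0 u →
      (∀ a, ∀ k ≤ K + 2 * m + 1, ∀ x, ‖x‖ < 1 / 2 → ‖iteratedFDeriv ℝ k (u a) x‖ ≤ M) →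
      ∀ a, ∀ k ≤ K + (2 * m + 2), ∀ x, ‖x‖ ≤ 1 / 8 → ‖iteratedFDeriv ℝ k (u a) x‖ ≤ C := by
  obtain ⟨C1, hC1, hN⟩ := N_ch_le (m := m) K 0
  obtain ⟨C2, hC2, hit⟩ := iterA hg (fun a x _ => Qop_zero c a x) K
    (M := ENNReal.ofReal (C1 * M)) ENNReal.ofReal_ne_top (2 * m + 2)
  refine ⟨(2 * Real.pi) ^ (K + (2 * m + 2)) * C2.toReal, by positivity, fun u hu hb a k hk x hx => ?_⟩
  obtain ⟨h1, -⟩ := hit u hu.smooth hu.eq
    (fun l hl s => hg.low l hl.le (pd s.1 (u s.2)) (contDiff_pd (hu.smooth s.2) s.1)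
      (norm_iter_pd_le (hu.smooth s.2) (hu.small s.2) s.1))
    (fun a => hN (u a) (hu.smooth a) M fun j hj x hx => hb a j (by omega) x hx)
    (fun s => hN (pd s.1 (u s.2)) (contDiff_pd (hu.smooth s.2) s.1) M
      (norm_iter_pd_le (hu.smooth s.2) (fun k _ hk x hx => hb s.2 k hk x hx) s.1))
  exact bound_of_N (hu.smooth a) ENNReal.toReal_nonneg
    ((h1 a).trans (le_of_eq (ENNReal.ofReal_toReal hC2).symm)) hk hx

/-- one macro step, for a difference -/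
lemma macroB {C0 : ℝ≥0∞} {e0 ε0 : ℝ} (hg : Good c C0 e0 ε0) (K : ℕ) (M : ℝ) :
    ∃ C : ℝ, 0 ≤ C ∧ ∀ u u' : Fin n → E m → ℝ, Adm c ε0 u → Adm c ε0 u' →
      (∀ a, ∀ k, 1 ≤ k → k ≤ K + (2 * m + 2) + 2 * m + 2 → ∀ x, ‖x‖ < 1 / 2 →
        ‖iteratedFDeriv ℝ k (u a) x‖ ≤ M) →
      (∀ a, ∀ k, 1 ≤ k → k ≤ K + (2 * m + 2) + 2 * m + 2 → ∀ x, ‖x‖ < 1 / 2 →
        ‖iteratedFDeriv ℝ k (u' a) x‖ ≤ M) →
      ∀ Z : ℝ, (∀ a, ∀ k ≤ K + 2 * m + 1, ∀ x, ‖x‖ < 1 / 2 →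
        ‖iteratedFDeriv ℝ k (fun y => u a y - u' a y) x‖ ≤ Z) →
      ∀ a, ∀ k ≤ K + (2 * m + 2), ∀ x, ‖x‖ ≤ 1 / 8 →
        ‖iteratedFDeriv ℝ k (fun y => u a y - u' a y) x‖ ≤ C * Z := by
  obtain ⟨C1, hC1, hN⟩ := N_ch_le (m := m) K 0
  choose D hD hND using fun l => N_ch_le (m := m) (K + (2 * m + 2)) l
  set S : ℝ := ∑ l ∈ Finset.range (2 * m + 2), D l with hS
  have hDS : ∀ l < 2 * m + 2, D l ≤ S := fun l hl =>
    Finset.single_le_sum (f := D) (fun l _ => hD l) (Finset.mem_range.2 hl)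
  obtain ⟨C2, hC2, hit⟩ := iterB hg K (M := ENNReal.ofReal (S * M)) ENNReal.ofReal_ne_top
    (2 * m + 2)
  refine ⟨(2 * Real.pi) ^ (K + (2 * m + 2)) * (C2.toReal * C1), by positivity,
    fun u u' hu hu' hb hb' Z hZ a k hk x hx => ?_⟩
  have hZ0 : 0 ≤ Z := (norm_nonneg _).trans (hZ a 0 (Nat.zero_le _) 0 (by simp))
  have hz : ∀ a, ContDiff ℝ ∞ fun y => u a y - u' a y := fun a => (hu.smooth a).sub (hu'.smooth a)
  have hM1 : ∀ l < 2 * m + 2, ∀ F : E m → ℝ, ContDiff ℝ ∞ F →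
      (∀ j ≤ K + (2 * m + 2) + 2 * m, ∀ x, ‖x‖ < 1 / 2 → ‖iteratedFDeriv ℝ j F x‖ ≤ M) →
      N (wt (K + (2 * m + 2)) 0 0) (per fun x => ch m l x * F x) ≤ ENNReal.ofReal (S * M) := by
    intro l hl F hF hb
    have hM0 : 0 ≤ M := (norm_nonneg _).trans (hb 0 (Nat.zero_le _) 0 (by simp))
    refine (hND l F hF M hb).trans (ENNReal.ofReal_le_ofReal ?_)
    have := hDS l hl
    gcongr
  obtain ⟨h1, -⟩ := hit u u' hu.smooth hu'.smooth hu.eq hu'.eq
    (fun l hl s => hg.low l hl.le (pd s.1 (u s.2)) (contDiff_pd (hu.smooth s.2) s.1)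
      (norm_iter_pd_le (hu.smooth s.2) (hu.small s.2) s.1))
    (fun l hl s => hg.low l hl.le (pd s.1 (u' s.2)) (contDiff_pd (hu'.smooth s.2) s.1)
      (norm_iter_pd_le (hu'.smooth s.2) (hu'.small s.2) s.1))
    (fun l hl s => hM1 l hl (pd s.1 (u s.2)) (contDiff_pd (hu.smooth s.2) s.1)
      (norm_iter_pd_le (hu.smooth s.2) (fun k h1 hk x hx => hb s.2 k h1 (by omega) x hx) s.1))
    (fun l hl s => hM1 l hl (pd s.1 (u' s.2)) (contDiff_pd (hu'.smooth s.2) s.1)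
      (norm_iter_pd_le (hu'.smooth s.2) (fun k h1 hk x hx => hb' s.2 k h1 (by omega) x hx) s.1))
    (fun l hl i j a => hM1 l hl (pd i (pd j (u' a))) (contDiff_pd (contDiff_pd (hu'.smooth a) j) i)
      (norm_iter_pd_le (contDiff_pd (hu'.smooth a) j) (fun k _ hk x hx =>
        norm_iter_pd_le (hu'.smooth a) (fun k h1 hk x hx => hb' a k h1 hk x hx) j k hk x hx) i))
    (ENNReal.ofReal (C1 * Z))
    (fun a => hN _ (hz a) Z fun j hj x hx => hZ a j (by omega) x hx)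
    (fun a i => hN (pd i fun y => u a y - u' a y) (contDiff_pd (hz a) i) Z
      (norm_iter_pd_le (hz a) (fun k _ hk x hx => hZ a k hk x hx) i))
  refine (bound_of_N (hz a) (B := C2.toReal * (C1 * Z)) (by positivity)
    ((h1 a).trans (le_of_eq ?_)) hk hx).trans (le_of_eq (by ring))
  rw [ENNReal.ofReal_mul ENNReal.toReal_nonneg, ENNReal.ofReal_toReal hC2]

/-- rescaling turns a bound at the centre into a bound on the ball -/
lemma resc_bound {f : E m → ℝ} (hf : ContDiff ℝ ∞ f) {k : ℕ} (hk : 1 ≤ k) {y : E m} {B : ℝ}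
    (h : ‖iteratedFDeriv ℝ k (resc ((1 / 2 : ℝ) • y) (1 / 2) f) 0‖ ≤ B) :
    ‖iteratedFDeriv ℝ k (resc 0 (1 / 2) f) y‖ ≤ B := by
  have h1 := norm_iter_resc hf 0 (r := 1 / 2) (by norm_num) hk y
  have h2 := norm_iter_le_resc hf ((1 / 2 : ℝ) • y) (r := 1 / 2) (by norm_num) hk 0
  have e1 : aff 0 (1 / 2) y = (1 / 2 : ℝ) • y := by
    unfold aff
    rw [zero_add]
  have e2 : aff ((1 / 2 : ℝ) • y) (1 / 2) 0 = (1 / 2 : ℝ) • y := by
    unfold aff
    rw [smul_zero, add_zero]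
  rw [e1] at h1
  rw [e2] at h2
  refine h1.trans ?_
  calc (1 / 2 : ℝ) ^ (k - 1) * ‖iteratedFDeriv ℝ k f ((1 / 2 : ℝ) • y)‖
      ≤ (1 / 2 : ℝ) ^ (k - 1) * ((1 / 2 : ℝ)⁻¹ ^ (k - 1) *
        ‖iteratedFDeriv ℝ k (resc ((1 / 2 : ℝ) • y) (1 / 2) f) 0‖) := by gcongr
    _ = ‖iteratedFDeriv ℝ k (resc ((1 / 2 : ℝ) • y) (1 / 2) f) 0‖ := by
        rw [← mul_assoc, ← mul_pow]
        norm_num
    _ ≤ B := h

lemma half_ball {y : E m} (hy : ‖y‖ < 1 / 2) : ‖(1 / 2 : ℝ) • y‖ + (1 / 2) / 2 ≤ 1 / 2 := by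
  rw [norm_smul]
  norm_num
  linarith

lemma zero_ball : ‖(0 : E m)‖ + (1 / 2) / 2 ≤ 1 / 2 := by
  rw [norm_zero]
  norm_num

/-- **(A)** interior bounds of all orders at the centre -/
theorem boundA {C0 : ℝ≥0∞} {e0 ε0 : ℝ} (hg : Good c C0 e0 ε0) (q : ℕ) :
    ∃ C : ℝ, 0 ≤ C ∧ ∀ u : Fin n → E m → ℝ, Adm c ε0 u → ∀ a, ∀ k, 1 ≤ k → k ≤ q →
      ‖iteratedFDeriv ℝ k (u a) 0‖ ≤ C := by
  induction q with
  | zero => exact ⟨0, le_rfl, fun u hu a k h1 h2 => by omega⟩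
  | succ q ih =>
    rcases Nat.lt_or_ge q (2 * m + 1) with hq | hq
    · exact ⟨ε0, hg.pos'.le, fun u hu a k h1 h2 => hu.small a k h1 (by omega) 0 (by simp)⟩
    · obtain ⟨Cq, hCq, hq1⟩ := ih
      obtain ⟨K, rfl⟩ : ∃ K, q = K + 2 * m + 1 := ⟨q - (2 * m + 1), by omega⟩
      obtain ⟨C, hC, hmac⟩ := macroA hg K (max Cq ε0)
      refine ⟨2 ^ (K + 2 * m + 1) * C, by positivity, fun u hu a k h1 h2 => ?_⟩
      have hv : Adm c ε0 fun a => resc 0 (1 / 2) (u a) := hu.resc (by norm_num) zero_ball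
      have hb : ∀ a, ∀ k ≤ K + 2 * m + 1, ∀ x, ‖x‖ < 1 / 2 →
          ‖iteratedFDeriv ℝ k (resc 0 (1 / 2) (u a)) x‖ ≤ max Cq ε0 := by
        intro a k hk x hx
        rcases Nat.eq_zero_or_pos k with h0 | h0
        · subst h0
          rw [norm_iteratedFDeriv_zero, Real.norm_eq_abs]
          exact (abs_le_of_deriv (hv.smooth a) (resc_zero _ _ _)
            (fun x hx => hv.small a 1 le_rfl (by omega) x hx) hx).trans (le_max_right _ _)
        · refine le_trans ?_ (le_max_left _ _)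
          exact resc_bound (hu.smooth a) h0 (hq1 _ (hu.resc (by norm_num) (half_ball hx)) a k h0 hk)
      have h3 := hmac _ hv hb a k (by omega) 0 (by simp)
      have h4 := norm_iter_le_resc (hu.smooth a) 0 (r := 1 / 2) (by norm_num) h1 0
      have e1 : aff (0 : E m) (1 / 2) 0 = 0 := by simp [aff]
      rw [e1] at h4
      refine h4.trans ?_
      have h5 : (1 / 2 : ℝ)⁻¹ ^ (k - 1) ≤ 2 ^ (K + 2 * m + 1) := by
        rw [one_div, inv_inv]
        exact pow_le_pow_right₀ one_le_two (by omega)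
      calc (1 / 2 : ℝ)⁻¹ ^ (k - 1) * ‖iteratedFDeriv ℝ k (resc 0 (1 / 2) (u a)) 0‖
          ≤ 2 ^ (K + 2 * m + 1) * C := by gcongr

/-- **(A')** interior bounds of all orders for differences at the centre -/
theorem boundB {C0 : ℝ≥0∞} {e0 ε0 : ℝ} (hg : Good c C0 e0 ε0) (q : ℕ) :
    ∃ C : ℝ, 1 ≤ C ∧ ∀ u u' : Fin n → E m → ℝ, Adm c ε0 u → Adm c ε0 u' → ∀ Z : ℝ,
      (∀ a, ∀ k, 1 ≤ k → k ≤ 2 * m + 1 → ∀ x, ‖x‖ < 1 / 2 →
        ‖iteratedFDeriv ℝ k (fun y => u a y - u' a y) x‖ ≤ Z) →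
      ∀ a, ∀ k, 1 ≤ k → k ≤ q → ‖iteratedFDeriv ℝ k (fun y => u a y - u' a y) 0‖ ≤ C * Z := by
  induction q with
  | zero => exact ⟨1, le_rfl, fun u u' hu hu' Z hZ a k h1 h2 => by omega⟩
  | succ q ih =>
    rcases Nat.lt_or_ge q (2 * m + 1) with hq | hq
    · exact ⟨1, le_rfl, fun u u' hu hu' Z hZ a k h1 h2 => by
        rw [one_mul]
        exact hZ a k h1 (by omega) 0 (by simp)⟩
    · obtain ⟨Cq, hCq, hq1⟩ := ih
      obtain ⟨K, rfl⟩ : ∃ K, q = K + 2 * m + 1 := ⟨q - (2 * m + 1), by omega⟩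
      obtain ⟨M, hM, hbA⟩ := boundA hg (K + (2 * m + 2) + 2 * m + 2)
      obtain ⟨C, hC, hmac⟩ := macroB hg K M
      refine ⟨max 1 (2 ^ (K + 2 * m + 1) * (C * Cq)), le_max_left _ _,
        fun u u' hu hu' Z hZ a k h1 h2 => ?_⟩
      have hZ0 : 0 ≤ Z := (norm_nonneg _).trans (hZ a 1 le_rfl (by omega) 0 (by simp))
      have hz : ∀ a, ContDiff ℝ ∞ fun y => u a y - u' a y := fun a =>
        (hu.smooth a).sub (hu'.smooth a)
      have hv : Adm c ε0 fun a => resc 0 (1 / 2) (u a) := hu.resc (by norm_num) zero_ball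
      have hv' : Adm c ε0 fun a => resc 0 (1 / 2) (u' a) := hu'.resc (by norm_num) zero_ball
      have hr : ∀ (x0 : E m) a, (fun y => resc x0 (1 / 2) (u a) y - resc x0 (1 / 2) (u' a) y) =
          resc x0 (1 / 2) fun y => u a y - u' a y := fun x0 a => funext fun y => resc_sub _ _ _ _ _
      -- the low derivatives of the rescaled difference
      have hlow : ∀ x0 : E m, ‖x0‖ + (1 / 2) / 2 ≤ 1 / 2 → ∀ a, ∀ k, 1 ≤ k → k ≤ 2 * m + 1 →
          ∀ x, ‖x‖ < 1 / 2 → ‖iteratedFDeriv ℝ k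
            (fun y => resc x0 (1 / 2) (u a) y - resc x0 (1 / 2) (u' a) y) x‖ ≤ Z := by
        intro x0 hx0 a k hk1 hk2 x hx
        rw [hr]
        refine (norm_iter_resc (hz a) x0 (r := 1 / 2) (by norm_num) hk1 x).trans ?_
        have h6 := hZ a k hk1 hk2 (aff x0 (1 / 2) x) (norm_aff_lt (by norm_num) hx0 hx)
        calc (1 / 2 : ℝ) ^ (k - 1) * ‖iteratedFDeriv ℝ k (fun y => u a y - u' a y) (aff x0 (1 / 2) x)‖
            ≤ 1 * Z := by
              gcongr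
              exact pow_le_one₀ (by norm_num) (by norm_num)
          _ = Z := one_mul Z
      have hb : ∀ a, ∀ k ≤ K + 2 * m + 1, ∀ x, ‖x‖ < 1 / 2 →
          ‖iteratedFDeriv ℝ k (fun y => resc 0 (1 / 2) (u a) y - resc 0 (1 / 2) (u' a) y) x‖ ≤
            Cq * Z := by
        intro a k hk x hx
        rcases Nat.eq_zero_or_pos k with h0 | h0
        · subst h0
          rw [norm_iteratedFDeriv_zero, Real.norm_eq_abs]
          have h7 := abs_le_of_deriv (f := fun y => resc 0 (1 / 2) (u a) y - resc 0 (1 / 2) (u' a) y)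
            ((hv.smooth a).sub (hv'.smooth a)) (by
              simp only [resc_zero, sub_zero])
            (fun x hx => hlow 0 zero_ball a 1 le_rfl (by omega) x hx) hx
          refine h7.trans ?_
          nlinarith
        · rw [hr]
          refine resc_bound (hz a) h0 ?_
          have h8 := hq1 _ _ (hu.resc (r := 1 / 2) (by norm_num) (half_ball hx))
            (hu'.resc (r := 1 / 2) (by norm_num) (half_ball hx)) Z
            (fun a k hk1 hk2 x' hx' => hlow _ (half_ball hx) a k hk1 hk2 x' hx') a k h0 hk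
          rw [hr] at h8
          exact h8
      have h3 := hmac _ _ hv hv'
        (fun a k hk1 hk2 x hx => resc_bound (hu.smooth a) hk1
          (hbA _ (hu.resc (by norm_num) (half_ball hx)) a k hk1 hk2))
        (fun a k hk1 hk2 x hx => resc_bound (hu'.smooth a) hk1
          (hbA _ (hu'.resc (by norm_num) (half_ball hx)) a k hk1 hk2))
        (Cq * Z) hb a k (by omega) 0 (by simp)
      rw [hr] at h3
      have h4 := norm_iter_le_resc (hz a) 0 (r := 1 / 2) (by norm_num) h1 0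
      have e1 : aff (0 : E m) (1 / 2) 0 = 0 := by simp [aff]
      rw [e1] at h4
      refine h4.trans ?_
      have h5 : (1 / 2 : ℝ)⁻¹ ^ (k - 1) ≤ 2 ^ (K + 2 * m + 1) := by
        rw [one_div, inv_inv]
        exact pow_le_pow_right₀ one_le_two (by omega)
      calc (1 / 2 : ℝ)⁻¹ ^ (k - 1) *
            ‖iteratedFDeriv ℝ k (resc 0 (1 / 2) fun y => u a y - u' a y) 0‖
          ≤ 2 ^ (K + 2 * m + 1) * (C * (Cq * Z)) := by gcongr
        _ = 2 ^ (K + 2 * m + 1) * (C * Cq) * Z := by ring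
        _ ≤ _ := by
            gcongr
            exact le_max_right _ _

end

end Vale.Agent.P214.REG
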