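import Vale.Agent.P214.REG.Fou

/-!
# P214, block REG: one step of the bootstrap
-/

open MvPolynomial MeasureTheory
open scoped ENNReal ContDiff

namespace Vale.Agent.P214.REG

open Vale.Agent.P214.REF

noncomputable section

variable {m n : ℕ}

lemma contDiff_mul' {f g : E m → ℝ} (hf : ContDiff ℝ ∞ f) (hg : ContDiff ℝ ∞ g) :
    ContDiff ℝ ∞ fun x => f x * g x := hf.mul hg

lemma contDiff_sub' {f g : E m → ℝ} (hf : ContDiff ℝ ∞ f) (hg : ContDiff ℝ ∞ g) :
    ContDiff ℝ ∞ fun x => f x - g x := hf.sub hg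

/-- product rule -/
lemma pd_mul {f g : E m → ℝ} (hf : ContDiff ℝ ∞ f) (hg : ContDiff ℝ ∞ g) (i : Fin m) :
    pd i (fun x => f x * g x) = fun x => pd i f x * g x + f x * pd i g x := by
  funext x
  unfold pd
  have h1 : DifferentiableAt ℝ f x := (hf.differentiable (by simp)).differentiableAt
  have h2 : DifferentiableAt ℝ g x := (hg.differentiable (by simp)).differentiableAt
  have h3 : fderiv ℝ (fun x => f x * g x) x = f x • fderiv ℝ g x + g x • fderiv ℝ f x :=
    fderiv_fun_mul h1 h2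
  rw [h3]
  simp only [ContinuousLinearMap.add_apply, ContinuousLinearMap.smul_apply, smul_eq_mul]
  ring

lemma pd_sub {f g : E m → ℝ} (hf : ContDiff ℝ ∞ f) (hg : ContDiff ℝ ∞ g) (i : Fin m) :
    pd i (fun x => f x - g x) = fun x => pd i f x - pd i g x := by
  funext x
  unfold pd
  have h1 : DifferentiableAt ℝ f x := (hf.differentiable (by simp)).differentiableAt
  have h2 : DifferentiableAt ℝ g x := (hg.differentiable (by simp)).differentiableAt
  have h3 : fderiv ℝ (fun x => f x - g x) x = fderiv ℝ f x - fderiv ℝ g x :=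
    fderiv_fun_sub h1 h2
  rw [h3]
  rfl

/-- second derivatives of a product -/
lemma pd_pd_mul {f g : E m → ℝ} (hf : ContDiff ℝ ∞ f) (hg : ContDiff ℝ ∞ g) (i j : Fin m) (x : E m) :
    pd i (pd j (fun x => f x * g x)) x =
      pd i (pd j f) x * g x + pd j f x * pd i g x + (pd i f x * pd j g x + f x * pd i (pd j g) x) := by
  rw [pd_mul hf hg, pd_add (contDiff_mul' (contDiff_pd hf j) hg) (contDiff_mul' hf (contDiff_pd hg j)),
    pd_mul (contDiff_pd hf j) hg, pd_mul hf (contDiff_pd hg j)]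

/-! ### weights -/

lemma N_wt_mono (p : ℕ) {ε : ℝ} (h0 : 0 ≤ ε) (h1 : ε ≤ 1) (f : C(Tor m, ℝ)) :
    N (wt 0 p ε) f ≤ N (wt p 0 0) f := by
  refine N_mono (fun k => ?_) f
  unfold wt
  refine ENNReal.ofReal_le_ofReal ?_
  unfold wr
  have := sz_nonneg k
  simp only [pow_zero, one_mul, mul_one]
  gcongr
  nlinarith

lemma N_wt_back (p : ℕ) {ε : ℝ} (h0 : 0 < ε) (h1 : ε ≤ 1) (f : C(Tor m, ℝ)) :
    N (wt p 0 0) f ≤ ENNReal.ofReal (ε⁻¹ ^ p) * N (wt 0 p ε) f := by
  unfold N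
  rw [← ENNReal.tsum_mul_left]
  refine ENNReal.tsum_le_tsum fun k => ?_
  have h3 : wt p 0 0 k ≤ ENNReal.ofReal (ε⁻¹ ^ p) * wt 0 p ε k := by
    unfold wt
    rw [← ENNReal.ofReal_mul (by positivity)]
    refine ENNReal.ofReal_le_ofReal ?_
    unfold wr
    have hs := sz_nonneg k
    simp only [pow_zero, one_mul, mul_one]
    rw [← mul_pow]
    gcongr
    have h5 : ε⁻¹ * (1 + ε * sz k) = ε⁻¹ + sz k := by
      field_simp
    rw [h5]
    have := one_le_inv_iff₀.2 ⟨h0, h1⟩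
    linarith
  calc ‖fc f k‖ₑ * wt p 0 0 k ≤ ‖fc f k‖ₑ * (ENNReal.ofReal (ε⁻¹ ^ p) * wt 0 p ε k) := by gcongr
    _ = _ := by ring

lemma N_wt_small (p : ℕ) {ε : ℝ} (h0 : 0 ≤ ε) (h1 : ε ≤ 1) (f : C(Tor m, ℝ)) :
    N (wt 0 p ε) f ≤ N (wt 0 0 0) f + ENNReal.ofReal ε * N (wt p 0 0) f := by
  have h2 := N_wt_le 0 p h0 h1 f
  rw [funext fun k => wt_eq 0 p k, zero_add] at h2
  exact h2

/-! ### cut-offs -/

/-- a pair of nested cut-off functions -/
structure Cut (χ χ' : E m → ℝ) (ρ : ℝ) : Prop where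
  h1 : ContDiff ℝ ∞ χ
  h2 : ContDiff ℝ ∞ χ'
  s1 : ∀ x, ρ ≤ ‖x‖ → χ x = 0
  s2 : Sup χ'
  one : ∀ x, ‖x‖ ≤ ρ → χ' x = 1
  le : ρ ≤ 7 / 16

variable {χ χ' : E m → ℝ} {ρ : ℝ}

lemma Cut.sup (h : Cut χ χ' ρ) : Sup χ := sup_of_lt h.le h.s1

lemma Cut.supm (h : Cut χ χ' ρ) (f : E m → ℝ) : Sup fun x => χ' x * f x := fun x hx => by
  simp only [h.s2 x hx, zero_mul]

lemma Cut.supm1 (h : Cut χ χ' ρ) (f : E m → ℝ) : Sup fun x => χ x * f x := fun x hx => by
  simp only [h.sup x hx, zero_mul]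

/-- inserting the second cut-off -/
lemma Cut.per_eq (h : Cut χ χ' ρ) {φ f : E m → ℝ} (hφ : ContDiff ℝ ∞ φ)
    (sφ : ∀ x, ρ ≤ ‖x‖ → φ x = 0) (hf : ContDiff ℝ ∞ f) :
    per (fun x => φ x * f x) = per φ * per (fun x => χ' x * f x) := by
  have sφ' : Sup φ := sup_of_lt h.le sφ
  rw [← per_mul hφ.continuous (h.h2.mul hf).continuous sφ' (h.supm f)]
  congr 1
  funext x
  rcases le_or_gt ‖x‖ ρ with hx | hx
  · rw [h.one x hx, one_mul]
  · rw [sφ x hx.le, zero_mul, zero_mul]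

/-- the torus functions of the jet -/
def Pj (χ' : E m → ℝ) (u : Fin n → E m → ℝ) (s : Fin m × Fin n) : C(Tor m, ℝ) :=
  per fun x => χ' x * pd s.1 (u s.2) x

/-- **the localised equation** -/
lemma per_lap_eq (h : Cut χ χ' ρ) (c : Fin m → Fin m → MvPolynomial (Fin m × Fin n) ℝ)
    {u u' : Fin n → E m → ℝ} (hu : ∀ a, ContDiff ℝ ∞ (u a)) (hu' : ∀ a, ContDiff ℝ ∞ (u' a))
    (e : ∀ a x, ‖x‖ < 1 / 2 → Qop c u a x = 0) (e' : ∀ a x, ‖x‖ < 1 / 2 → Qop c u' a x = 0)
    (a : Fin n) {z : E m → ℝ} (hz : ContDiff ℝ ∞ z) (hzu : ∀ x, z x = u a x - u' a x) :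
    per (lap fun x => χ x * z x) =
      ∑ i, ∑ j, aeval (Pj χ' u) (c i j) * (per (pd i (pd j fun x => χ x * z x)) -
        (per (pd i (pd j χ)) * per (fun x => χ' x * z x) +
          per (pd j χ) * per (fun x => χ' x * pd i z x) +
          per (pd i χ) * per (fun x => χ' x * pd j z x))) +
      ∑ i, ∑ j, (aeval (Pj χ' u) (c i j) - aeval (Pj χ' u') (c i j)) *
        (per χ * per (fun x => χ' x * pd i (pd j (u' a)) x)) +
      ∑ i, (per (pd i (pd i χ)) * per (fun x => χ' x * z x) +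
        (per (pd i χ) * per (fun x => χ' x * pd i z x) +
          per (pd i χ) * per (fun x => χ' x * pd i z x))) := by
  have hV : ContDiff ℝ ∞ fun x => χ x * z x := h.h1.mul hz
  have sV : ∀ x, ρ ≤ ‖x‖ → (fun x => χ x * z x) x = 0 := fun x hx => by
    simp only [h.s1 x hx, zero_mul]
  have sV' : Sup fun x => χ x * z x := sup_of_lt h.le sV
  ext t
  set x : E m := repE t with hx
  have p1 : ∀ i, per (pd i χ) t = pd i χ x := fun i =>
    per_apply (contDiff_pd h.h1 i).continuous (pd_zero_of h.h1 h.sup i) t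
  have p2 : ∀ i j, per (pd i (pd j χ)) t = pd i (pd j χ) x := fun i j =>
    per_apply (contDiff_pd (contDiff_pd h.h1 j) i).continuous
      (pd_zero_of (contDiff_pd h.h1 j) (pd_zero_of h.h1 h.sup j) i) t
  have p3 : per (fun x => χ' x * z x) t = χ' x * z x :=
    per_apply (h.h2.mul hz).continuous (h.supm z) t
  have p4 : ∀ i, per (fun x => χ' x * pd i z x) t = χ' x * pd i z x := fun i =>
    per_apply (h.h2.mul (contDiff_pd hz i)).continuous (h.supm _) t
  have p5 : ∀ i j, per (fun x => χ' x * pd i (pd j (u' a)) x) t = χ' x * pd i (pd j (u' a)) x :=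
    fun i j => per_apply (h.h2.mul (contDiff_pd (contDiff_pd (hu' a) j) i)).continuous (h.supm _) t
  have p6 : ∀ i j, per (pd i (pd j fun x => χ x * z x)) t = pd i (pd j fun x => χ x * z x) x :=
    fun i j => per_apply (contDiff_pd (contDiff_pd hV j) i).continuous
      (pd_zero_of (contDiff_pd hV j) (pd_zero_of hV sV' j) i) t
  have p7 : per (lap fun x => χ x * z x) t = ∑ i, pd i (pd i fun x => χ x * z x) x :=
    per_apply (contDiff_lap hV).continuous (sup_lap hV sV') t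
  have p8 : per χ t = χ x := per_apply h.h1.continuous h.sup t
  have p9 : ∀ s, Pj χ' u s t = χ' x * pd s.1 (u s.2) x := fun s =>
    per_apply (h.h2.mul (contDiff_pd (hu s.2) s.1)).continuous (h.supm _) t
  have p10 : ∀ s, Pj χ' u' s t = χ' x * pd s.1 (u' s.2) x := fun s =>
    per_apply (h.h2.mul (contDiff_pd (hu' s.2) s.1)).continuous (h.supm _) t
  simp only [ContinuousMap.add_apply, sum_torus_apply, ContinuousMap.mul_apply,
    ContinuousMap.sub_apply, aeval_tor, p1, p2, p3, p4, p5, p6, p7, p8, p9, p10]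
  rcases le_or_gt ‖x‖ ρ with hxr | hxr
  · have h1 : χ' x = 1 := h.one x hxr
    have hx2 : ‖x‖ < 1 / 2 := lt_of_le_of_lt (hxr.trans h.le) (by norm_num)
    have e1 := e a x hx2
    have e2 := e' a x hx2
    have z1 : ∀ i, pd i z x = pd i (u a) x - pd i (u' a) x := by
      intro i
      have : z = fun x => u a x - u' a x := funext hzu
      rw [this, pd_sub (hu a) (hu' a)]
    have z2 : ∀ i j, pd i (pd j z) x = pd i (pd j (u a)) x - pd i (pd j (u' a)) x := by
      intro i j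
      have : z = fun x => u a x - u' a x := funext hzu
      rw [this, pd_sub (hu a) (hu' a), pd_sub (contDiff_pd (hu a) j) (contDiff_pd (hu' a) j)]
    simp only [h1, one_mul, pd_pd_mul h.h1 hz]
    unfold Qop at e1 e2
    have e3 : ∑ i, χ x * pd i (pd i z) x =
        χ x * (∑ i, ∑ j, eval (fun s : Fin m × Fin n => pd s.1 (u s.2) x) (c i j) * pd i (pd j (u a)) x -
          ∑ i, ∑ j, eval (fun s : Fin m × Fin n => pd s.1 (u' s.2) x) (c i j) * pd i (pd j (u' a)) x) := by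
      rw [← Finset.mul_sum, Finset.sum_congr rfl fun i _ => z2 i i, Finset.sum_sub_distrib]
      congr 1
      linarith
    have e4 : ∑ i, (pd i (pd i χ) x * z x + pd i χ x * pd i z x +
        (pd i χ x * pd i z x + χ x * pd i (pd i z) x)) =
        ∑ i, (pd i (pd i χ) x * z x + (pd i χ x * pd i z x + pd i χ x * pd i z x)) +
        ∑ i, χ x * pd i (pd i z) x := by
      rw [← Finset.sum_add_distrib]
      refine Finset.sum_congr rfl fun i _ => ?_
      ring
    rw [e4, e3, add_comm]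
    congr 1
    rw [mul_sub, Finset.mul_sum, Finset.mul_sum, ← Finset.sum_sub_distrib, ← Finset.sum_add_distrib]
    refine Finset.sum_congr rfl fun i _ => ?_
    rw [Finset.mul_sum, Finset.mul_sum, ← Finset.sum_sub_distrib, ← Finset.sum_add_distrib]
    refine Finset.sum_congr rfl fun j _ => ?_
    rw [z2 i j]
    ring
  · have q1 : ∀ i, pd i χ x = 0 := fun i => pd_zero_of h.h1 h.s1 i x hxr.le
    have q2 : ∀ i j, pd i (pd j χ) x = 0 := fun i j =>
      pd_zero_of (contDiff_pd h.h1 j) (pd_zero_of h.h1 h.s1 j) i x hxr.le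
    have q3 : ∀ i j, pd i (pd j fun x => χ x * z x) x = 0 := fun i j =>
      pd_zero_of (contDiff_pd hV j) (pd_zero_of hV sV j) i x hxr.le
    simp only [q1, q2, q3, h.s1 x hxr.le, zero_mul, mul_zero, add_zero, sub_zero,
      Finset.sum_const_zero]

end

end Vale.Agent.P214.REG
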