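import Vale.Agent.P214.REG.Macro

/-!
# P214, block REG: translation and dilation
-/

open MvPolynomial MeasureTheory
open scoped ENNReal ContDiff

namespace Vale.Agent.P214.REG

open Vale.Agent.P214.REF

noncomputable section

variable {m n : ℕ}

/-- the affine map -/
def aff (x0 : E m) (r : ℝ) (y : E m) : E m := x0 + r • y

lemma contDiff_aff (x0 : E m) (r : ℝ) : ContDiff ℝ ∞ (aff x0 r) :=
  contDiff_const.add (contDiff_id.const_smul r)

/-- iterated derivatives of an affinely transformed function -/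
lemma norm_iter_aff {f : E m → ℝ} (hf : ContDiff ℝ ∞ f) (x0 : E m) (r α β : ℝ) {k : ℕ} (hk : 1 ≤ k)
    (y : E m) : ‖iteratedFDeriv ℝ k (fun y => α * f (aff x0 r y) + β) y‖ ≤
      |α| * |r| ^ k * ‖iteratedFDeriv ℝ k f (aff x0 r y)‖ := by
  set g : E m → ℝ := fun z => f (x0 + z) with hg
  have hgc : ContDiff ℝ ∞ g := hf.comp (contDiff_const.add contDiff_id)
  set L : E m →L[ℝ] E m := r • ContinuousLinearMap.id ℝ (E m) with hL
  have hgL : ContDiff ℝ ∞ (g ∘ L) := hgc.comp L.contDiff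
  have e1 : (fun y => α * f (aff x0 r y) + β) = fun y => (α • (g ∘ L)) y + β := by
    funext y
    simp [hg, hL, aff]
  have e2 : iteratedFDeriv ℝ k (fun y => (α • (g ∘ L)) y + β) y =
      iteratedFDeriv ℝ k (α • (g ∘ L)) y := by
    have h1 : ContDiffAt ℝ k (α • (g ∘ L)) y :=
      ((hgL.const_smul α).of_le (by exact_mod_cast le_top)).contDiffAt
    have h2 : ContDiffAt ℝ k (fun _ : E m => β) y := contDiffAt_const
    have h3 := fun_iteratedFDeriv_add_apply h1 h2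
    have h4 : iteratedFDeriv ℝ k (fun _ : E m => β) y = 0 := by
      have := iteratedFDeriv_const_of_ne (𝕜 := ℝ) (E := E m) (n := k) (by omega) β
      exact congrFun this y
    calc iteratedFDeriv ℝ k (fun y => (α • (g ∘ L)) y + β) y =
        iteratedFDeriv ℝ k (α • (g ∘ L)) y + iteratedFDeriv ℝ k (fun _ : E m => β) y := h3
      _ = _ := by rw [h4, add_zero]
  rw [e1, e2]
  have h5 : iteratedFDeriv ℝ k (α • (g ∘ L)) y = α • iteratedFDeriv ℝ k (g ∘ L) y :=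
    iteratedFDeriv_const_smul_apply (hgL.of_le (by exact_mod_cast le_top)).contDiffAt
  rw [h5, norm_smul, Real.norm_eq_abs, mul_assoc]
  gcongr
  rw [L.iteratedFDeriv_comp_right hgc y (by exact_mod_cast le_top)]
  refine (ContinuousMultilinearMap.norm_compContinuousLinearMap_le _ _).trans ?_
  rw [Finset.prod_const, Finset.card_univ, Fintype.card_fin]
  have h6 : ‖L‖ ≤ |r| := by
    rw [hL, norm_smul, Real.norm_eq_abs]
    calc |r| * ‖ContinuousLinearMap.id ℝ (E m)‖ ≤ |r| * 1 := by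
          gcongr
          exact ContinuousLinearMap.norm_id_le
      _ = |r| := mul_one _
  have h7 : iteratedFDeriv ℝ k g (L y) = iteratedFDeriv ℝ k f (aff x0 r y) := by
    have := iteratedFDeriv_comp_add_left (𝕜 := ℝ) (f := f) k x0 (L y)
    rw [hg, this]
    rfl
  rw [h7, mul_comm]
  gcongr

/-- the rescaled function -/
def resc (x0 : E m) (r : ℝ) (f : E m → ℝ) (y : E m) : ℝ := r⁻¹ * (f (aff x0 r y) - f x0)

lemma resc_eq (x0 : E m) (r : ℝ) (f : E m → ℝ) :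
    resc x0 r f = fun y => r⁻¹ * f (aff x0 r y) + -(r⁻¹ * f x0) := by
  funext y
  unfold resc
  ring

lemma contDiff_resc {f : E m → ℝ} (hf : ContDiff ℝ ∞ f) (x0 : E m) (r : ℝ) :
    ContDiff ℝ ∞ (resc x0 r f) :=
  contDiff_const.mul ((hf.comp (contDiff_aff x0 r)).sub contDiff_const)

lemma resc_zero (x0 : E m) (r : ℝ) (f : E m → ℝ) : resc x0 r f 0 = 0 := by
  simp [resc, aff]

lemma resc_sub (x0 : E m) (r : ℝ) (f g : E m → ℝ) (y : E m) :
    resc x0 r f y - resc x0 r g y = resc x0 r (fun x => f x - g x) y := by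
  unfold resc
  ring

lemma norm_iter_resc {f : E m → ℝ} (hf : ContDiff ℝ ∞ f) (x0 : E m) {r : ℝ} (hr : 0 < r) {k : ℕ}
    (hk : 1 ≤ k) (y : E m) : ‖iteratedFDeriv ℝ k (resc x0 r f) y‖ ≤
      r ^ (k - 1) * ‖iteratedFDeriv ℝ k f (aff x0 r y)‖ := by
  rw [resc_eq]
  refine (norm_iter_aff hf x0 r r⁻¹ _ hk y).trans (le_of_eq ?_)
  rw [abs_of_pos hr, abs_of_pos (inv_pos.2 hr)]
  obtain ⟨j, rfl⟩ : ∃ j, k = j + 1 := ⟨k - 1, by omega⟩
  rw [Nat.add_sub_cancel, pow_succ]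
  field_simp

/-- going back -/
lemma norm_iter_le_resc {f : E m → ℝ} (hf : ContDiff ℝ ∞ f) (x0 : E m) {r : ℝ} (hr : 0 < r) {k : ℕ}
    (hk : 1 ≤ k) (y : E m) : ‖iteratedFDeriv ℝ k f (aff x0 r y)‖ ≤
      r⁻¹ ^ (k - 1) * ‖iteratedFDeriv ℝ k (resc x0 r f) y‖ := by
  have e1 : f = fun z => r * resc x0 r f (aff (-(r⁻¹ • x0)) r⁻¹ z) + f x0 := by
    funext z
    unfold resc aff
    have h1 : x0 + r • (-(r⁻¹ • x0) + r⁻¹ • z) = z := by
      rw [smul_add, smul_neg, smul_smul, smul_smul, mul_inv_cancel₀ hr.ne', one_smul, one_smul]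
      abel
    rw [h1]
    field_simp
    ring
  have e2 : aff (-(r⁻¹ • x0)) r⁻¹ (aff x0 r y) = y := by
    unfold aff
    rw [smul_add, smul_smul, inv_mul_cancel₀ hr.ne', one_smul]
    abel
  have h1 := norm_iter_aff (contDiff_resc hf x0 r) (-(r⁻¹ • x0)) r⁻¹ r (f x0) hk (aff x0 r y)
  rw [← e1, e2] at h1
  refine h1.trans (le_of_eq ?_)
  rw [abs_of_pos hr, abs_of_pos (inv_pos.2 hr)]
  obtain ⟨j, rfl⟩ : ∃ j, k = j + 1 := ⟨k - 1, by omega⟩
  rw [Nat.add_sub_cancel, pow_succ]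
  field_simp

/-- derivatives of affinely transformed functions -/
lemma pd_aff {f : E m → ℝ} (hf : ContDiff ℝ ∞ f) (x0 : E m) (r α β : ℝ) (i : Fin m) :
    pd i (fun y => α * f (aff x0 r y) + β) = fun y => (α * r) * pd i f (aff x0 r y) := by
  funext y
  unfold pd
  have h1 : HasFDerivAt (aff x0 r) (r • ContinuousLinearMap.id ℝ (E m)) y := by
    unfold aff
    exact ((hasFDerivAt_id y).const_smul r).const_add x0
  have h2 : HasFDerivAt f (fderiv ℝ f (aff x0 r y)) (aff x0 r y) :=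
    (hf.differentiable (by simp) _).hasFDerivAt
  have h3 := ((h2.comp y h1).const_mul α).add_const β
  have h4 : HasFDerivAt (fun y => α * f (aff x0 r y) + β)
      (α • (fderiv ℝ f (aff x0 r y)).comp (r • ContinuousLinearMap.id ℝ (E m))) y := h3
  rw [h4.fderiv]
  simp
  ring

lemma pd_resc {f : E m → ℝ} (hf : ContDiff ℝ ∞ f) (x0 : E m) {r : ℝ} (hr : 0 < r) (i : Fin m) :
    pd i (resc x0 r f) = fun y => pd i f (aff x0 r y) := by
  rw [resc_eq, pd_aff hf, inv_mul_cancel₀ hr.ne']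
  simp

lemma pd_pd_resc {f : E m → ℝ} (hf : ContDiff ℝ ∞ f) (x0 : E m) {r : ℝ} (hr : 0 < r) (i j : Fin m) :
    pd i (pd j (resc x0 r f)) = fun y => r * pd i (pd j f) (aff x0 r y) := by
  rw [pd_resc hf x0 hr]
  have h1 := pd_aff (contDiff_pd hf j) x0 r 1 0 i
  simpa only [one_mul, add_zero] using h1

lemma Qop_resc (c : Fin m → Fin m → MvPolynomial (Fin m × Fin n) ℝ) {u : Fin n → E m → ℝ}
    (hu : ∀ a, ContDiff ℝ ∞ (u a)) (x0 : E m) {r : ℝ} (hr : 0 < r) (a : Fin n) (y : E m) :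
    Qop c (fun b => resc x0 r (u b)) a y = r * Qop c u a (aff x0 r y) := by
  unfold Qop
  simp only [pd_pd_resc (hu a) x0 hr]
  have h1 : ∀ s : Fin m × Fin n, pd s.1 (resc x0 r (u s.2)) y = pd s.1 (u s.2) (aff x0 r y) :=
    fun s => congrFun (pd_resc (hu s.2) x0 hr s.1) y
  simp only [h1]
  rw [mul_sub, Finset.mul_sum, Finset.mul_sum]
  congr 1
  refine Finset.sum_congr rfl fun i _ => ?_
  rw [Finset.mul_sum]
  refine Finset.sum_congr rfl fun j _ => ?_
  ring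

/-- admissible exact solutions -/
structure Adm (c : Fin m → Fin m → MvPolynomial (Fin m × Fin n) ℝ) (ε : ℝ) (u : Fin n → E m → ℝ) :
    Prop where
  smooth : ∀ a, ContDiff ℝ ∞ (u a)
  small : ∀ a, ∀ k, 1 ≤ k → k ≤ 2 * m + 1 → ∀ x, ‖x‖ < 1 / 2 → ‖iteratedFDeriv ℝ k (u a) x‖ ≤ ε
  eq : ∀ a x, ‖x‖ < 1 / 2 → Qop c u a x = 0

lemma norm_aff_lt {x0 : E m} {r : ℝ} (hr : 0 < r) (h : ‖x0‖ + r / 2 ≤ 1 / 2) {y : E m}
    (hy : ‖y‖ < 1 / 2) : ‖aff x0 r y‖ < 1 / 2 := by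
  unfold aff
  calc ‖x0 + r • y‖ ≤ ‖x0‖ + ‖r • y‖ := norm_add_le _ _
    _ = ‖x0‖ + r * ‖y‖ := by rw [norm_smul, Real.norm_eq_abs, abs_of_pos hr]
    _ < ‖x0‖ + r * (1 / 2) := by gcongr
    _ ≤ 1 / 2 := by linarith

lemma Adm.resc {c : Fin m → Fin m → MvPolynomial (Fin m × Fin n) ℝ} {ε : ℝ}
    {u : Fin n → E m → ℝ} (h : Adm c ε u) {x0 : E m} {r : ℝ} (hr : 0 < r)
    (hx : ‖x0‖ + r / 2 ≤ 1 / 2) : Adm c ε fun a => REG.resc x0 r (u a) where
  smooth a := contDiff_resc (h.smooth a) x0 r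
  small a k hk1 hk2 y hy := by
    have hr1 : r ≤ 1 := by linarith [norm_nonneg x0]
    refine (norm_iter_resc (h.smooth a) x0 hr hk1 y).trans ?_
    calc r ^ (k - 1) * ‖iteratedFDeriv ℝ k (u a) (aff x0 r y)‖ ≤ 1 * ε := by
          gcongr
          · exact pow_le_one₀ hr.le hr1
          · exact h.small a k hk1 hk2 _ (norm_aff_lt hr hx hy)
      _ = ε := one_mul _
  eq a y hy := by
    rw [Qop_resc c h.smooth x0 hr, h.eq a _ (norm_aff_lt hr hx hy), mul_zero]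

/-- a function vanishing at the origin is bounded by its first derivative -/
lemma abs_le_of_deriv {f : E m → ℝ} (hf : ContDiff ℝ ∞ f) (h0 : f 0 = 0) {M : ℝ}
    (h : ∀ x, ‖x‖ < 1 / 2 → ‖iteratedFDeriv ℝ 1 f x‖ ≤ M) {x : E m} (hx : ‖x‖ < 1 / 2) :
    |f x| ≤ M := by
  have hM : 0 ≤ M := (norm_nonneg _).trans (h 0 (by simp))
  have h1 : ∀ y ∈ Metric.ball (0 : E m) (1 / 2), ‖fderiv ℝ f y‖ ≤ M := by
    intro y hy
    rw [← norm_iteratedFDeriv_one]
    exact h y (by rwa [Metric.mem_ball, dist_zero_right] at hy)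
  have h2 := (convex_ball (0 : E m) (1 / 2)).norm_image_sub_le_of_norm_fderiv_le (𝕜 := ℝ)
    (fun y _ => (hf.differentiable (by simp)) y) h1 (Metric.mem_ball_self (by norm_num))
    (by rwa [Metric.mem_ball, dist_zero_right] : x ∈ Metric.ball (0 : E m) (1 / 2))
  rw [h0, sub_zero, sub_zero, Real.norm_eq_abs] at h2
  refine h2.trans ?_
  nlinarith

end

end Vale.Agent.P214.REG
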