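import Vale.Agent.P214.REG.Micro

/-!
# P214, block REG: the estimate of one step of the bootstrap
-/

open MvPolynomial MeasureTheory
open scoped ENNReal ContDiff

namespace Vale.Agent.P214.REG

open Vale.Agent.P214.REF

noncomputable section

variable {m n : ℕ}

/-- what `poly_lip'` gives -/
def PB (c : Fin m → Fin m → MvPolynomial (Fin m × Fin n) ℝ) (C0 : ℝ≥0∞) : Prop :=
  ∀ (w : (Fin m → ℤ) → ℝ≥0∞), Wt w → ∀ (x y : Fin m × Fin n → C(Tor m, ℝ)) (η : ℝ≥0∞),
      (∀ s, N w (x s) ≤ 1) → (∀ s, N w (y s) ≤ 1) → (∀ s, N w (x s - y s) ≤ η) → ∀ i j,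
        (∀ θ, (∀ s, N w (x s) ≤ θ) → N w (aeval x (c i j)) ≤ C0 * θ) ∧
        N w (aeval x (c i j) - aeval y (c i j)) ≤ C0 * η

lemma half_absorb {x y : ℝ≥0∞} (hx : x ≠ ⊤) (h : x ≤ 2⁻¹ * x + y) : x ≤ 2 * y := by
  have h1 : (2⁻¹ : ℝ≥0∞) * x + 2⁻¹ * x = x := by
    rw [← add_mul, ENNReal.inv_two_add_inv_two, one_mul]
  have h2 : (2⁻¹ : ℝ≥0∞) * x ≠ ⊤ := ENNReal.mul_ne_top (by simp) hx
  have h3 : (2⁻¹ : ℝ≥0∞) * x ≤ y := by
    refine (ENNReal.add_le_add_iff_left h2).1 ?_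
    rw [h1]
    exact h
  calc x = 2 * (2⁻¹ * x) := by
        rw [← mul_assoc, ENNReal.mul_inv_cancel two_ne_zero (by simp), one_mul]
    _ ≤ 2 * y := by gcongr

variable {χ χ' : E m → ℝ} {ρ : ℝ}

/-- the size of the cut-off -/
def K1 (p : ℕ) (χ : E m → ℝ) : ℝ≥0∞ :=
  N (wt p 0 0) (per χ) + ∑ i, N (wt p 0 0) (per (pd i χ)) +
    ∑ i, ∑ j, N (wt p 0 0) (per (pd i (pd j χ)))

lemma K1_ne_top (p : ℕ) (h : Cut χ χ' ρ) : K1 p χ ≠ ⊤ := by
  unfold K1
  refine ENNReal.add_ne_top.2 ⟨ENNReal.add_ne_top.2 ⟨N_per_ne_top h.h1 h.sup p,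
    ENNReal.sum_ne_top.2 fun i _ => N_per_ne_top (contDiff_pd h.h1 i) (pd_zero_of h.h1 h.sup i) p⟩,
    ENNReal.sum_ne_top.2 fun i _ => ENNReal.sum_ne_top.2 fun j _ =>
      N_per_ne_top (contDiff_pd (contDiff_pd h.h1 j) i)
        (pd_zero_of (contDiff_pd h.h1 j) (pd_zero_of h.h1 h.sup j) i) p⟩

lemma le_K1_0 (p : ℕ) (χ : E m → ℝ) : N (wt p 0 0) (per χ) ≤ K1 p χ := by
  unfold K1
  exact le_self_add.trans le_self_add

lemma le_K1_1 (p : ℕ) (χ : E m → ℝ) (i : Fin m) : N (wt p 0 0) (per (pd i χ)) ≤ K1 p χ := by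
  unfold K1
  have h1 : N (wt p 0 0) (per (pd i χ)) ≤ ∑ i, N (wt p 0 0) (per (pd i χ)) :=
    Finset.single_le_sum (f := fun i => N (wt p 0 0) (per (pd i χ))) (fun _ _ => bot_le)
      (Finset.mem_univ i)
  exact (h1.trans le_add_self).trans le_self_add

lemma le_K1_2 (p : ℕ) (χ : E m → ℝ) (i j : Fin m) :
    N (wt p 0 0) (per (pd i (pd j χ))) ≤ K1 p χ := by
  unfold K1
  have h1 : N (wt p 0 0) (per (pd i (pd j χ))) ≤ ∑ j, N (wt p 0 0) (per (pd i (pd j χ))) :=
    Finset.single_le_sum (f := fun j => N (wt p 0 0) (per (pd i (pd j χ)))) (fun _ _ => bot_le)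
      (Finset.mem_univ j)
  have h2 : ∑ j, N (wt p 0 0) (per (pd i (pd j χ))) ≤ ∑ i, ∑ j, N (wt p 0 0) (per (pd i (pd j χ))) :=
    Finset.single_le_sum (f := fun i => ∑ j, N (wt p 0 0) (per (pd i (pd j χ))))
      (fun _ _ => bot_le) (Finset.mem_univ i)
  exact (h1.trans h2).trans le_add_self

lemma Pj_sub (h : Cut χ χ' ρ) {u u' : Fin n → E m → ℝ} (hu : ∀ a, ContDiff ℝ ∞ (u a))
    (hu' : ∀ a, ContDiff ℝ ∞ (u' a)) (s : Fin m × Fin n) :
    Pj χ' u s - Pj χ' u' s = per fun x => χ' x * pd s.1 (fun y => u s.2 y - u' s.2 y) x := by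
  unfold Pj
  rw [← per_sub (h.h2.mul (contDiff_pd (hu s.2) s.1)).continuous
    (h.h2.mul (contDiff_pd (hu' s.2) s.1)).continuous (h.supm _) (h.supm _)]
  congr 1
  funext x
  rw [pd_sub (hu s.2) (hu' s.2), mul_sub]

/-- **one step of the bootstrap** -/
theorem micro (c : Fin m → Fin m → MvPolynomial (Fin m × Fin n) ℝ) {C0 : ℝ≥0∞} (hC0t : C0 ≠ ⊤)
    (hC0 : PB c C0) {e0 : ℝ} (he0 : 0 < e0) (he1 : 2 * e0 ≤ 1)
    (he2 : (m : ℝ≥0∞) ^ 2 * (C0 * ENNReal.ofReal (2 * e0)) ≤ 2⁻¹)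
    (h : Cut χ χ' ρ) (p : ℕ) {M : ℝ≥0∞} (hM : M ≠ ⊤) :
    ∃ C : ℝ≥0∞, C ≠ ⊤ ∧ ∀ u u' : Fin n → E m → ℝ, (∀ a, ContDiff ℝ ∞ (u a)) →
      (∀ a, ContDiff ℝ ∞ (u' a)) → (∀ a x, ‖x‖ < 1 / 2 → Qop c u a x = 0) →
      (∀ a x, ‖x‖ < 1 / 2 → Qop c u' a x = 0) →
      (∀ s, N (wt 0 0 0) (Pj χ' u s) ≤ ENNReal.ofReal e0) →
      (∀ s, N (wt 0 0 0) (Pj χ' u' s) ≤ ENNReal.ofReal e0) →
      (∀ s, N (wt p 0 0) (Pj χ' u s) ≤ M) → (∀ s, N (wt p 0 0) (Pj χ' u' s) ≤ M) →
      (∀ i j a, N (wt p 0 0) (per fun x => χ' x * pd i (pd j (u' a)) x) ≤ M) →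
      ∀ Z : ℝ≥0∞, (∀ a, N (wt p 0 0) (per fun x => χ' x * (u a x - u' a x)) ≤ Z) →
        (∀ a i, N (wt p 0 0) (per fun x => χ' x * pd i (fun y => u a y - u' a y) x) ≤ Z) →
      (∀ a, N (wt (p + 1) 0 0) (per fun x => χ x * (u a x - u' a x)) ≤ C * Z) ∧
      (∀ a i, N (wt (p + 1) 0 0) (per fun x => χ x * pd i (fun y => u a y - u' a y) x) ≤ C * Z) := by
  set K := K1 p χ with hK
  have hKt : K ≠ ⊤ := K1_ne_top p h
  -- the small parameter
  set ε : ℝ := min 1 (e0 / (M.toReal + 1)) with hε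
  have hM0 : 0 ≤ M.toReal := ENNReal.toReal_nonneg
  have hε0 : 0 < ε := lt_min one_pos (by positivity)
  have hε1 : ε ≤ 1 := min_le_left _ _
  have hεM : ENNReal.ofReal ε * M ≤ ENNReal.ofReal e0 := by
    rw [← ENNReal.ofReal_toReal hM, ← ENNReal.ofReal_mul hε0.le]
    refine ENNReal.ofReal_le_ofReal ?_
    have h1 : ε ≤ e0 / (M.toReal + 1) := min_le_right _ _
    calc ε * M.toReal ≤ e0 / (M.toReal + 1) * M.toReal := by gcongr
      _ ≤ e0 / (M.toReal + 1) * (M.toReal + 1) := by gcongr; linarith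
      _ = e0 := by field_simp
  set w : (Fin m → ℤ) → ℝ≥0∞ := wt 0 p ε with hw
  have hwW : Wt w := Wt_wt 0 p hε0.le
  have hmono : ∀ f : C(Tor m, ℝ), N w f ≤ N (wt p 0 0) f := fun f => N_wt_mono p hε0.le hε1 f
  set B : ℝ≥0∞ := 2⁻¹ * (3 * K) + (m : ℝ≥0∞) ^ 2 * (C0 * (K * M)) + m * (3 * K) with hB
  have hBt : B ≠ ⊤ := by
    refine ENNReal.add_ne_top.2 ⟨ENNReal.add_ne_top.2 ⟨?_, ?_⟩, ?_⟩
    · exact ENNReal.mul_ne_top (by simp) (ENNReal.mul_ne_top (by simp) hKt)
    · exact ENNReal.mul_ne_top (by simp) (ENNReal.mul_ne_top hC0t (ENNReal.mul_ne_top hKt hM))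
    · exact ENNReal.mul_ne_top (by simp) (ENNReal.mul_ne_top (by simp) hKt)
  set B2 : ℝ≥0∞ := ENNReal.ofReal (ε⁻¹ ^ p) * (2 * B) with hB2
  have hB2t : B2 ≠ ⊤ := ENNReal.mul_ne_top ENNReal.ofReal_ne_top (ENNReal.mul_ne_top (by simp) hBt)
  refine ⟨K + m * (B2 + 5 * K), ENNReal.add_ne_top.2 ⟨hKt, ENNReal.mul_ne_top (by simp)
    (ENNReal.add_ne_top.2 ⟨hB2t, ENNReal.mul_ne_top (by simp) hKt⟩)⟩, ?_⟩
  intro u u' hu hu' e e' s1 s2 M1 M2 M3 Z hZ0 hZ1
  have hz : ∀ a, ContDiff ℝ ∞ (fun y => u a y - u' a y) := fun a => (hu a).sub (hu' a)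
  have hmul : ∀ f g : C(Tor m, ℝ), ∀ A D : ℝ≥0∞, N w f ≤ A → N w g ≤ D → N w (f * g) ≤ A * D :=
    fun f g A D h1 h2 => (hwW.N_mul f g).trans (mul_le_mul' h1 h2)
  have hmulp : ∀ f g : C(Tor m, ℝ), ∀ A D : ℝ≥0∞, N (wt p 0 0) f ≤ A → N (wt p 0 0) g ≤ D →
      N (wt p 0 0) (f * g) ≤ A * D :=
    fun f g A D h1 h2 => ((Wt_wt p 0 le_rfl).N_mul f g).trans (mul_le_mul' h1 h2)
  -- the estimate of the Laplacian
  have key : ∀ a, N w (per (lap fun x => χ x * (u a x - u' a x))) ≤ 2 * (B * Z) := by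
    intro a
    have hV : ContDiff ℝ ∞ fun x => χ x * (u a x - u' a x) := h.h1.mul (hz a)
    have sV : Sup fun x => χ x * (u a x - u' a x) := h.supm1 _
    set X : ℝ≥0∞ := N w (per (lap fun x => χ x * (u a x - u' a x))) with hX
    have hXt : X ≠ ⊤ := ne_top_of_le_ne_top (N_per_ne_top (contDiff_lap hV) (sup_lap hV sV) p)
      (hmono _)
    refine half_absorb hXt ?_
    have small : ∀ s, N w (Pj χ' u s) ≤ ENNReal.ofReal (2 * e0) := by
      intro s
      refine (N_wt_small p hε0.le hε1 _).trans ?_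
      rw [two_mul, ENNReal.ofReal_add he0.le he0.le]
      refine add_le_add (s1 s) (le_trans ?_ hεM)
      gcongr
      exact M1 s
    have small' : ∀ s, N w (Pj χ' u' s) ≤ ENNReal.ofReal (2 * e0) := by
      intro s
      refine (N_wt_small p hε0.le hε1 _).trans ?_
      rw [two_mul, ENNReal.ofReal_add he0.le he0.le]
      refine add_le_add (s2 s) (le_trans ?_ hεM)
      gcongr
      exact M2 s
    have one2 : ENNReal.ofReal (2 * e0) ≤ 1 := ENNReal.ofReal_le_one.2 he1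
    have hpoly := hC0 w hwW (Pj χ' u) (Pj χ' u') Z (fun s => (small s).trans one2)
      (fun s => (small' s).trans one2) (fun s => by
        rw [Pj_sub h hu hu' s]
        exact (hmono _).trans (hZ1 s.2 s.1))
    refine le_trans (le_of_eq (congrArg (N w)
      (per_lap_eq h c hu hu' e e' a (hz a) (fun x => rfl)))) ?_
    -- the three terms
    have t1 : N w (∑ i, ∑ j, aeval (Pj χ' u) (c i j) *
        (per (pd i (pd j fun x => χ x * (u a x - u' a x))) -
        (per (pd i (pd j χ)) * per (fun x => χ' x * (u a x - u' a x)) +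
          per (pd j χ) * per (fun x => χ' x * pd i (fun y => u a y - u' a y) x) +
          per (pd i χ) * per (fun x => χ' x * pd j (fun y => u a y - u' a y) x)))) ≤
        2⁻¹ * (X + 3 * (K * Z)) := by
      have t11 : ∀ i j, N w (aeval (Pj χ' u) (c i j) *
          (per (pd i (pd j fun x => χ x * (u a x - u' a x))) -
          (per (pd i (pd j χ)) * per (fun x => χ' x * (u a x - u' a x)) +
            per (pd j χ) * per (fun x => χ' x * pd i (fun y => u a y - u' a y) x) +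
            per (pd i χ) * per (fun x => χ' x * pd j (fun y => u a y - u' a y) x)))) ≤
          (C0 * ENNReal.ofReal (2 * e0)) * (X + 3 * (K * Z)) := by
        intro i j
        refine hmul _ _ _ _ ((hpoly i j).1 _ small) ?_
        refine (N_sub _ _).trans (add_le_add (N_pd_pd_le w hV sV i j) ?_)
        have e3 : 3 * (K * Z) = K * Z + K * Z + K * Z := by ring
        rw [e3]
        refine (N_add _ _).trans (add_le_add ((N_add _ _).trans (add_le_add ?_ ?_)) ?_)
        · exact hmul _ _ _ _ ((hmono _).trans (le_K1_2 p χ i j)) ((hmono _).trans (hZ0 a))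
        · exact hmul _ _ _ _ ((hmono _).trans (le_K1_1 p χ j)) ((hmono _).trans (hZ1 a i))
        · exact hmul _ _ _ _ ((hmono _).trans (le_K1_1 p χ i)) ((hmono _).trans (hZ1 a j))
      calc _ ≤ ∑ i : Fin m, ∑ j : Fin m, (C0 * ENNReal.ofReal (2 * e0)) * (X + 3 * (K * Z)) := by
            refine (N_sum _ _).trans (Finset.sum_le_sum fun i _ => ?_)
            exact (N_sum _ _).trans (Finset.sum_le_sum fun j _ => t11 i j)
        _ = (m : ℝ≥0∞) ^ 2 * (C0 * ENNReal.ofReal (2 * e0)) * (X + 3 * (K * Z)) := by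
            simp only [Finset.sum_const, Finset.card_univ, Fintype.card_fin, nsmul_eq_mul]
            ring
        _ ≤ _ := by gcongr
    have t2 : N w (∑ i, ∑ j, (aeval (Pj χ' u) (c i j) - aeval (Pj χ' u') (c i j)) *
        (per χ * per (fun x => χ' x * pd i (pd j (u' a)) x))) ≤
        (m : ℝ≥0∞) ^ 2 * (C0 * (K * M)) * Z := by
      have t21 : ∀ i j, N w ((aeval (Pj χ' u) (c i j) - aeval (Pj χ' u') (c i j)) *
          (per χ * per (fun x => χ' x * pd i (pd j (u' a)) x))) ≤ (C0 * Z) * (K * M) := by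
        intro i j
        refine hmul _ _ _ _ (hpoly i j).2 ?_
        exact hmul _ _ _ _ ((hmono _).trans (le_K1_0 p χ)) ((hmono _).trans (M3 i j a))
      calc _ ≤ ∑ i : Fin m, ∑ j : Fin m, (C0 * Z) * (K * M) := by
            refine (N_sum _ _).trans (Finset.sum_le_sum fun i _ => ?_)
            exact (N_sum _ _).trans (Finset.sum_le_sum fun j _ => t21 i j)
        _ = _ := by
            simp only [Finset.sum_const, Finset.card_univ, Fintype.card_fin, nsmul_eq_mul]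
            ring
    have t3 : N w (∑ i, (per (pd i (pd i χ)) * per (fun x => χ' x * (u a x - u' a x)) +
        (per (pd i χ) * per (fun x => χ' x * pd i (fun y => u a y - u' a y) x) +
          per (pd i χ) * per (fun x => χ' x * pd i (fun y => u a y - u' a y) x)))) ≤
        m * (3 * K) * Z := by
      have t31 : ∀ i, N w (per (pd i (pd i χ)) * per (fun x => χ' x * (u a x - u' a x)) +
          (per (pd i χ) * per (fun x => χ' x * pd i (fun y => u a y - u' a y) x) +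
            per (pd i χ) * per (fun x => χ' x * pd i (fun y => u a y - u' a y) x))) ≤
          3 * (K * Z) := by
        intro i
        have e3 : 3 * (K * Z) = K * Z + (K * Z + K * Z) := by ring
        rw [e3]
        refine (N_add _ _).trans (add_le_add ?_ ((N_add _ _).trans (add_le_add ?_ ?_)))
        · exact hmul _ _ _ _ ((hmono _).trans (le_K1_2 p χ i i)) ((hmono _).trans (hZ0 a))
        · exact hmul _ _ _ _ ((hmono _).trans (le_K1_1 p χ i)) ((hmono _).trans (hZ1 a i))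
        · exact hmul _ _ _ _ ((hmono _).trans (le_K1_1 p χ i)) ((hmono _).trans (hZ1 a i))
      calc _ ≤ ∑ i : Fin m, 3 * (K * Z) := (N_sum _ _).trans (Finset.sum_le_sum fun i _ => t31 i)
        _ = _ := by
            simp only [Finset.sum_const, Finset.card_univ, Fintype.card_fin, nsmul_eq_mul]
            ring
    calc _ ≤ 2⁻¹ * (X + 3 * (K * Z)) + (m : ℝ≥0∞) ^ 2 * (C0 * (K * M)) * Z + m * (3 * K) * Z :=
          (N_add _ _).trans (add_le_add ((N_add _ _).trans (add_le_add t1 t2)) t3)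
      _ = 2⁻¹ * X + B * Z := by
          rw [hB]
          ring
  -- second derivatives
  have key2 : ∀ a i j, N (wt p 0 0) (per (pd i (pd j fun x => χ x * (u a x - u' a x)))) ≤ B2 * Z := by
    intro a i j
    refine (N_wt_back p hε0 hε1 _).trans ?_
    rw [hB2, mul_assoc, mul_assoc]
    gcongr
    exact (N_pd_pd_le w (h.h1.mul (hz a)) (h.supm1 _) i j).trans (key a)
  have pe0 : ∀ a, N (wt p 0 0) (per fun x => χ x * (u a x - u' a x)) ≤ K * Z := by
    intro a
    rw [h.per_eq h.h1 h.s1 (hz a)]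
    exact hmulp _ _ _ _ (le_K1_0 p χ) (hZ0 a)
  have pe1 : ∀ a i, N (wt p 0 0) (per fun x => χ x * pd i (fun y => u a y - u' a y) x) ≤ K * Z := by
    intro a i
    rw [h.per_eq h.h1 h.s1 (contDiff_pd (hz a) i)]
    exact hmulp _ _ _ _ (le_K1_0 p χ) (hZ1 a i)
  have pd0 : ∀ a i, N (wt p 0 0) (per fun x => pd i χ x * (u a x - u' a x)) ≤ K * Z := by
    intro a i
    rw [h.per_eq (contDiff_pd h.h1 i) (pd_zero_of h.h1 h.s1 i) (hz a)]
    exact hmulp _ _ _ _ (le_K1_1 p χ i) (hZ0 a)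
  have pd1 : ∀ a i j, N (wt p 0 0) (per fun x => pd i χ x * pd j (fun y => u a y - u' a y) x) ≤
      K * Z := by
    intro a i j
    rw [h.per_eq (contDiff_pd h.h1 i) (pd_zero_of h.h1 h.s1 i) (contDiff_pd (hz a) j)]
    exact hmulp _ _ _ _ (le_K1_1 p χ i) (hZ1 a j)
  have pd2 : ∀ a i j, N (wt p 0 0) (per fun x => pd i (pd j χ) x * (u a x - u' a x)) ≤ K * Z := by
    intro a i j
    rw [h.per_eq (contDiff_pd (contDiff_pd h.h1 j) i)
      (pd_zero_of (contDiff_pd h.h1 j) (pd_zero_of h.h1 h.s1 j) i) (hz a)]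
    exact hmulp _ _ _ _ (le_K1_2 p χ i j) (hZ0 a)
  -- support and continuity of the pieces
  have c0 : ∀ a i, Continuous fun x => pd i χ x * (u a x - u' a x) := fun a i =>
    ((contDiff_pd h.h1 i).mul (hz a)).continuous
  have c1 : ∀ a i j, Continuous fun x => pd i χ x * pd j (fun y => u a y - u' a y) x := fun a i j =>
    ((contDiff_pd h.h1 i).mul (contDiff_pd (hz a) j)).continuous
  have c2 : ∀ a i j, Continuous fun x => pd i (pd j χ) x * (u a x - u' a x) := fun a i j =>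
    ((contDiff_pd (contDiff_pd h.h1 j) i).mul (hz a)).continuous
  have u0 : ∀ a i, Sup fun x => pd i χ x * (u a x - u' a x) := fun a i x hx => by
    simp only [pd_zero_of h.h1 h.sup i x hx, zero_mul]
  have u1 : ∀ a i j, Sup fun x => pd i χ x * pd j (fun y => u a y - u' a y) x := fun a i j x hx => by
    simp only [pd_zero_of h.h1 h.sup i x hx, zero_mul]
  have u2 : ∀ a i j, Sup fun x => pd i (pd j χ) x * (u a x - u' a x) := fun a i j x hx => by
    simp only [pd_zero_of (contDiff_pd h.h1 j) (pd_zero_of h.h1 h.sup j) i x hx, zero_mul]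
  constructor
  · intro a
    refine (N_succ_le p (h.h1.mul (hz a)) (h.supm1 _)).trans ?_
    have q1 : ∀ i, N (wt p 0 0) (per (pd i fun x => χ x * (u a x - u' a x))) ≤ 2 * (K * Z) := by
      intro i
      rw [pd_mul h.h1 (hz a), per_add (c0 a i) (h.h1.mul (contDiff_pd (hz a) i)).continuous (u0 a i)
        (h.supm1 _), two_mul]
      exact (N_add _ _).trans (add_le_add (pd0 a i) (pe1 a i))
    calc _ ≤ K * Z + ∑ i : Fin m, 2 * (K * Z) := add_le_add (pe0 a) (Finset.sum_le_sum fun i _ => q1 i)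
      _ = (K + m * (2 * K)) * Z := by
          simp only [Finset.sum_const, Finset.card_univ, Fintype.card_fin, nsmul_eq_mul]
          ring
      _ ≤ _ := by
          gcongr
          calc 2 * K ≤ 5 * K := by gcongr; norm_num
            _ ≤ _ := le_add_self
  · intro a i
    refine (N_succ_le p (h.h1.mul (contDiff_pd (hz a) i)) (h.supm1 _)).trans ?_
    have q1 : ∀ l, N (wt p 0 0) (per (pd l fun x => χ x * pd i (fun y => u a y - u' a y) x)) ≤
        (B2 + 5 * K) * Z := by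
      intro l
      have hV : ContDiff ℝ ∞ fun x => χ x * (u a x - u' a x) := h.h1.mul (hz a)
      have sV : Sup fun x => χ x * (u a x - u' a x) := h.supm1 _
      have e1 : (pd l fun x => χ x * pd i (fun y => u a y - u' a y) x) =
          fun x => pd l (pd i fun x => χ x * (u a x - u' a x)) x -
            (pd l (pd i χ) x * (u a x - u' a x) + pd i χ x * pd l (fun y => u a y - u' a y) x) := by
        funext x
        rw [pd_mul h.h1 (contDiff_pd (hz a) i), pd_pd_mul h.h1 (hz a)]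
        ring
      rw [e1, per_sub (F := fun x => pd l (pd i fun x => χ x * (u a x - u' a x)) x)
        (G := fun x => pd l (pd i χ) x * (u a x - u' a x) + pd i χ x * pd l (fun y => u a y - u' a y) x)
        (contDiff_pd (contDiff_pd hV i) l).continuous ((c2 a l i).add (c1 a i l))
        (pd_zero_of (contDiff_pd hV i) (pd_zero_of hV sV i) l)
        (fun x hx => by
          have k1 : pd l (pd i χ) x * (u a x - u' a x) = 0 := u2 a l i x hx
          have k2 : pd i χ x * pd l (fun y => u a y - u' a y) x = 0 := u1 a i l x hx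
          change pd l (pd i χ) x * (u a x - u' a x) + pd i χ x * pd l (fun y => u a y - u' a y) x = 0
          rw [k1, k2, add_zero])]
      refine (N_sub _ _).trans ?_
      rw [per_add (c2 a l i) (c1 a i l) (u2 a l i) (u1 a i l)]
      calc _ ≤ B2 * Z + (K * Z + K * Z) :=
            add_le_add (key2 a l i) ((N_add _ _).trans (add_le_add (pd2 a l i) (pd1 a i l)))
        _ = (B2 + 2 * K) * Z := by ring
        _ ≤ _ := by
            gcongr
            norm_num
    calc _ ≤ K * Z + ∑ l : Fin m, (B2 + 5 * K) * Z :=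
          add_le_add (pe1 a i) (Finset.sum_le_sum fun l _ => q1 l)
      _ = _ := by
          simp only [Finset.sum_const, Finset.card_univ, Fintype.card_fin, nsmul_eq_mul]
          ring

end

end Vale.Agent.P214.REG
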